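import Mathlib

/-! Grand-canonical configuration sums with a symmetric pair weight and their factorisation. -/

namespace Vale.Agent.P171

open MeasureTheory Finset
open scoped ENNReal

variable {X : Type*} [MeasureSpace X] [SigmaFinite (volume : Measure X)]

/-- Sum of the kernel over all ordered pairs, diagonal included. -/
noncomputable def wsum {ι : Type*} [Fintype ι] (k : X → X → ℝ) (x : ι → X) : ℝ :=
  ∑ i, ∑ j, k (x i) (x j)

/-- Boltzmann weight. -/
noncomputable def bweight {ι : Type*} [Fintype ι] (k : X → X → ℝ) (a : ℝ) (x : ι → X) : ℝ≥0∞ :=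
  ENNReal.ofReal (Real.exp (a * (Fintype.card ι : ℝ) + wsum k x))

/-- Labelled configuration integral. -/
noncomputable def labint (ι : Type*) [Fintype ι] (k : X → X → ℝ) (a : ℝ) (A : Set X) : ℝ≥0∞ :=
  ∫⁻ x in Set.pi Set.univ (fun _ : ι => A), bweight k a x

/-- One term of the configuration sum. -/
noncomputable def cterm (k : X → X → ℝ) (a : ℝ) (A : Set X) (N : ℕ) : ℝ≥0∞ :=
  (N.factorial : ℝ≥0∞)⁻¹ * labint (Fin N) k a A

/-- The configuration sum. -/
noncomputable def conf (k : X → X → ℝ) (a : ℝ) (A : Set X) : ℝ≥0∞ :=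
  ∑' N, cterm k a A N

theorem measurable_bweight {ι : Type*} [Fintype ι] {k : X → X → ℝ}
    (hk : Measurable fun p : X × X => k p.1 p.2) (a : ℝ) :
    Measurable (fun x : ι → X => bweight k a x) := by
  unfold bweight wsum
  refine ENNReal.measurable_ofReal.comp (Real.measurable_exp.comp (measurable_const.add ?_))
  refine Finset.measurable_sum _ fun i _ => Finset.measurable_sum _ fun j _ => ?_
  exact hk.comp (f := fun x : ι → X => (x i, x j))
    ((measurable_pi_apply i).prodMk (measurable_pi_apply j))

theorem conf_mono (k : X → X → ℝ) (a : ℝ) {A B : Set X} (h : A ⊆ B) :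
    conf k a A ≤ conf k a B :=
  ENNReal.tsum_le_tsum fun N => by
    unfold cterm labint
    gcongr

theorem conf_empty_term (k : X → X → ℝ) (a : ℝ) (A : Set X) : cterm k a A 0 = 1 := by
  simp [cterm, labint, bweight, wsum, volume_pi, Measure.pi_of_empty]

theorem one_le_conf (k : X → X → ℝ) (a : ℝ) (A : Set X) : 1 ≤ conf k a A :=
  (conf_empty_term k a A).symm.le.trans (ENNReal.le_tsum 0)

theorem labint_congr {ι ι' : Type*} [Fintype ι] [Fintype ι'] (e : ι ≃ ι') (k : X → X → ℝ)
    (a : ℝ) (A : Set X) : labint ι k a A = labint ι' k a A := by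
  have hmp := volume_measurePreserving_piCongrLeft (fun _ : ι' => X) e
  unfold labint
  rw [← hmp.setLIntegral_comp_preimage_emb (MeasurableEquiv.measurableEmbedding _)]
  have hE : ∀ (x : ι → X) (i : ι), MeasurableEquiv.piCongrLeft (fun _ : ι' => X) e x (e i) = x i :=
    fun x i => by simp [MeasurableEquiv.coe_piCongrLeft, Equiv.piCongrLeft_apply_apply]
  congr 1
  · congr 1
    ext x
    simp only [Set.mem_pi, Set.mem_univ, forall_true_left, Set.mem_preimage]
    constructor
    · intro h j
      obtain ⟨i, rfl⟩ := e.surjective j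
      rw [hE]; exact h i
    · intro h i
      have := h (e i)
      rwa [hE] at this
  · funext x
    unfold bweight wsum
    rw [Fintype.card_congr e]
    congr 3
    rw [← e.sum_comp]
    refine Finset.sum_congr rfl fun i _ => ?_
    rw [← e.sum_comp]
    simp only [hE]

theorem labint_eq_fin {ι : Type*} [Fintype ι] (k : X → X → ℝ) (a : ℝ) (A : Set X) :
    labint ι k a A = labint (Fin (Fintype.card ι)) k a A :=
  labint_congr (Fintype.equivFin ι) k a A

/-- Configurations on `A ∪ B` with prescribed labels in `A`. -/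
def splitSet {N : ℕ} (A B : Set X) (S : Finset (Fin N)) : Set (Fin N → X) :=
  {x | ∀ i, (i ∈ S → x i ∈ A) ∧ (i ∉ S → x i ∈ B)}

theorem measurableSet_splitSet {N : ℕ} {A B : Set X} (hA : MeasurableSet A)
    (hB : MeasurableSet B) (S : Finset (Fin N)) : MeasurableSet (splitSet A B S) := by
  have h : splitSet A B S = Set.pi Set.univ (fun i => if i ∈ S then A else B) := by
    ext x
    simp only [splitSet, Set.mem_setOf_eq, Set.mem_pi, Set.mem_univ, forall_true_left]
    refine forall_congr' fun i => ?_
    by_cases hi : i ∈ S <;> simp [hi]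
  rw [h]
  refine MeasurableSet.univ_pi fun i => ?_
  by_cases hi : i ∈ S <;> simp [hi, hA, hB]

theorem lintegral_splitSet {N : ℕ} {k : X → X → ℝ} (hk : Measurable fun p : X × X => k p.1 p.2)
    (a : ℝ) {A B : Set X} (hA : MeasurableSet A) (hB : MeasurableSet B)
    (h0 : ∀ p ∈ A, ∀ q ∈ B, k p q = 0 ∧ k q p = 0) (S : Finset (Fin N)) :
    ∫⁻ x in splitSet A B S, bweight k a x
      = labint (Fin S.card) k a A * labint (Fin (N - S.card)) k a B := by
  have hcard1 : Fintype.card {i // i ∈ S} = S.card := Fintype.card_coe S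
  have hcard2 : Fintype.card {i // ¬ i ∈ S} = N - S.card := by
    rw [Fintype.card_subtype_compl, Fintype.card_fin]; simp
  let P := Set.pi Set.univ (fun _ : {i // i ∈ S} => A)
  let Q := Set.pi Set.univ (fun _ : {i // ¬ i ∈ S} => B)
  let e := MeasurableEquiv.piEquivPiSubtypeProd (fun _ : Fin N => X) (fun i => i ∈ S)
  have hmp := volume_preserving_piEquivPiSubtypeProd (fun _ : Fin N => X) (fun i => i ∈ S)
  have hset : splitSet A B S = e ⁻¹' (P ×ˢ Q) := by
    ext x
    simp [splitSet, e, P, Q, MeasurableEquiv.piEquivPiSubtypeProd, Equiv.piEquivPiSubtypeProd,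
      forall_and]
  have hfun : Set.EqOn (fun x : Fin N → X => bweight k a x)
      (fun x => bweight k a (e x).1 * bweight k a (e x).2) (splitSet A B S) := by
    intro x hx
    simp only [bweight, ← ENNReal.ofReal_mul (Real.exp_pos _).le, ← Real.exp_add]
    refine congrArg (fun t => ENNReal.ofReal (Real.exp t)) ?_
    have h1 : ∀ i : {i // i ∈ S}, (e x).1 i = x i := fun i => rfl
    have h2 : ∀ i : {i // ¬ i ∈ S}, (e x).2 i = x i := fun i => rfl
    have hc : (Fintype.card (Fin N) : ℝ)
        = (Fintype.card {i // i ∈ S} : ℝ) + Fintype.card {i // ¬ i ∈ S} := by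
      rw [← Nat.cast_add, hcard1, hcard2, Fintype.card_fin,
        Nat.add_sub_of_le (by simpa using S.card_le_univ)]
    have hw : wsum k x = wsum k (e x).1 + wsum k (e x).2 := by
      unfold wsum
      simp only [h1, h2]
      rw [← Fintype.sum_subtype_add_sum_subtype (fun i => i ∈ S) (fun i => ∑ j, k (x i) (x j))]
      congr 1
      · refine Finset.sum_congr (by ext; simp) fun i _ => ?_
        rw [← Fintype.sum_subtype_add_sum_subtype (fun j => j ∈ S) (fun j => k (x i) (x j))]
        simp [fun j : {j // ¬ j ∈ S} => (h0 _ ((hx i).1 i.2) _ ((hx j).2 j.2)).1]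
        exact Finset.sum_congr (by ext; simp) fun _ _ => rfl
      · refine Finset.sum_congr (by ext; simp) fun i _ => ?_
        rw [← Fintype.sum_subtype_add_sum_subtype (fun j => j ∈ S) (fun j => k (x i) (x j))]
        simp [fun j : {j // j ∈ S} => (h0 _ ((hx j).1 j.2) _ ((hx i).2 i.2)).2]
    rw [hc, hw]; ring
  have hP : MeasurableSet P := MeasurableSet.univ_pi fun _ => hA
  have hQ : MeasurableSet Q := MeasurableSet.univ_pi fun _ => hB
  rw [setLIntegral_congr_fun (measurableSet_splitSet hA hB S) hfun, hset,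
    hmp.setLIntegral_comp_preimage (f := fun z => bweight k a z.1 * bweight k a z.2)
      (hP.prod hQ)
      (((measurable_bweight hk a).comp measurable_fst).mul
        ((measurable_bweight hk a).comp measurable_snd))]
  rw [← hcard2, ← hcard1, ← labint_eq_fin, ← labint_eq_fin]
  unfold labint
  rw [Measure.volume_eq_prod, ← Measure.prod_restrict,
    lintegral_prod_mul (measurable_bweight hk a).aemeasurable (measurable_bweight hk a).aemeasurable]
  rw [Subsingleton.elim (Subtype.fintype fun i => i ∈ S) (Finset.Subtype.fintype S)]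

theorem pi_union_eq_biUnion {N : ℕ} (A B : Set X) :
    Set.pi Set.univ (fun _ : Fin N => A ∪ B)
      = ⋃ S ∈ (Finset.univ : Finset (Fin N)).powerset, splitSet A B S := by
  classical
  ext x
  simp only [Set.mem_pi, Set.mem_univ, forall_true_left, Set.mem_iUnion, Finset.mem_powerset,
    Finset.subset_univ, exists_prop, true_and]
  constructor
  · intro h
    refine ⟨Finset.univ.filter (fun i => x i ∈ A), fun i => ⟨fun hi => ?_, fun hi => ?_⟩⟩
    · simpa using hi
    · rcases h i with h' | h'
      · exact absurd (by simp [h']) hi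
      · exact h'
  · rintro ⟨S, hS⟩ i
    by_cases hi : i ∈ S
    · exact Or.inl ((hS i).1 hi)
    · exact Or.inr ((hS i).2 hi)

theorem conf_union {k : X → X → ℝ} (hk : Measurable fun p : X × X => k p.1 p.2)
    (a : ℝ) {A B : Set X} (hA : MeasurableSet A) (hB : MeasurableSet B) (hd : Disjoint A B)
    (h0 : ∀ p ∈ A, ∀ q ∈ B, k p q = 0 ∧ k q p = 0) :
    conf k a (A ∪ B) = conf k a A * conf k a B := by
  have hterm : ∀ N, cterm k a (A ∪ B) N
      = ∑ p ∈ Finset.HasAntidiagonal.antidiagonal N, cterm k a A p.1 * cterm k a B p.2 := by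
    intro N
    unfold cterm
    conv_lhs => rw [labint, pi_union_eq_biUnion]
    rw [lintegral_biUnion_finset ?_ (fun S _ => measurableSet_splitSet hA hB S)]
    · simp only [lintegral_splitSet hk a hA hB h0]
      rw [Finset.sum_powerset_apply_card
          (fun c => labint (Fin c) k a A * labint (Fin (N - c)) k a B),
        Finset.card_univ, Fintype.card_fin, Finset.mul_sum,
        Finset.Nat.sum_antidiagonal_eq_sum_range_succ
          (fun i j => (i.factorial : ℝ≥0∞)⁻¹ * labint (Fin i) k a A
            * ((j.factorial : ℝ≥0∞)⁻¹ * labint (Fin j) k a B))]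
      refine Finset.sum_congr rfl fun c hc => ?_
      have hcN : c ≤ N := Nat.lt_succ_iff.1 (Finset.mem_range.1 hc)
      have hfac : (N.factorial : ℝ≥0∞)⁻¹ * (N.choose c : ℝ≥0∞)
          = (c.factorial : ℝ≥0∞)⁻¹ * ((N - c).factorial : ℝ≥0∞)⁻¹ := by
        rw [← Nat.choose_mul_factorial_mul_factorial hcN, Nat.cast_mul, Nat.cast_mul, mul_assoc,
          ENNReal.mul_inv (Or.inr (by simp [ENNReal.mul_ne_top]))
            (Or.inl (ENNReal.natCast_ne_top _)),
          ENNReal.mul_inv (Or.inr (ENNReal.natCast_ne_top _))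
            (Or.inl (ENNReal.natCast_ne_top _)),
          mul_comm, ← mul_assoc, ENNReal.mul_inv_cancel
            (by simpa using (Nat.choose_pos hcN).ne') (ENNReal.natCast_ne_top _), one_mul]
      rw [nsmul_eq_mul, ← mul_assoc, hfac]
      ring
    · intro S _ T _ hST
      rw [Function.onFun, Set.disjoint_left]
      intro x hxS hxT
      apply hST
      ext i
      constructor <;> intro hi <;> by_contra hj
      · exact Set.disjoint_left.1 hd ((hxS i).1 hi) ((hxT i).2 hj)
      · exact Set.disjoint_left.1 hd ((hxT i).1 hi) ((hxS i).2 hj)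
  unfold conf
  simp only [hterm]
  rw [← ENNReal.tsum_mul_right]
  simp only [← ENNReal.tsum_mul_left]
  rw [← ENNReal.tsum_prod, ← Finset.HasAntidiagonal.sigmaAntidiagonalEquivProd.tsum_eq (fun p : ℕ × ℕ => _),
    ENNReal.tsum_sigma']
  refine tsum_congr fun N => ?_
  exact (Finset.tsum_subtype (Finset.HasAntidiagonal.antidiagonal N)
    (fun p : ℕ × ℕ => cterm k a A p.1 * cterm k a B p.2)).symm

theorem conf_biUnion {κ : Type*} {k : X → X → ℝ} (hk : Measurable fun p : X × X => k p.1 p.2)
    (a : ℝ) (A : κ → Set X) (T : Finset κ) (hA : ∀ c ∈ T, MeasurableSet (A c))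
    (hd : ∀ c ∈ T, ∀ c' ∈ T, c ≠ c' → Disjoint (A c) (A c'))
    (h0 : ∀ c ∈ T, ∀ c' ∈ T, c ≠ c' → ∀ p ∈ A c, ∀ q ∈ A c', k p q = 0) :
    conf k a (⋃ c ∈ T, A c) = ∏ c ∈ T, conf k a (A c) := by
  classical
  induction T using Finset.induction with
  | empty =>
    simp only [Finset.notMem_empty, Set.iUnion_of_empty, Set.iUnion_empty, Finset.prod_empty]
    rw [conf, tsum_eq_single 0, conf_empty_term]
    intro N hN
    have : Nonempty (Fin N) := Fin.pos_iff_nonempty.1 (Nat.pos_of_ne_zero hN)
    simp [cterm, labint]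
  | @insert c T hc ih =>
    have hT : ∀ x ∈ T, x ∈ insert c T := fun x hx => Finset.mem_insert_of_mem hx
    have hcc : c ∈ insert c T := Finset.mem_insert_self c T
    have hne : ∀ x ∈ T, c ≠ x := fun x hx h => hc (h ▸ hx)
    rw [Finset.prod_insert hc, ← ih (fun x hx => hA x (hT x hx))
        (fun x hx y hy => hd x (hT x hx) y (hT y hy))
        (fun x hx y hy => h0 x (hT x hx) y (hT y hy)),
      Finset.set_biUnion_insert,
      conf_union hk a (hA c hcc) (Finset.measurableSet_biUnion _ fun x hx => hA x (hT x hx))]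
    · simp only [Set.disjoint_iUnion_right]
      exact fun x hx => hd c hcc x (hT x hx) (hne x hx)
    · intro p hp q hq
      simp only [Set.mem_iUnion, exists_prop] at hq
      obtain ⟨x, hx, hqx⟩ := hq
      exact ⟨h0 c hcc x (hT x hx) (hne x hx) p hp q hqx,
        h0 x (hT x hx) c hcc (hne x hx).symm q hqx p hp⟩

theorem bweight_le_bweight {ι : Type*} [Fintype ι] {k k' : X → X → ℝ} {a a' : ℝ} {x y : ι → X}
    (h : a * (Fintype.card ι : ℝ) + wsum k x ≤ a' * (Fintype.card ι : ℝ) + wsum k' y) :
    bweight k a x ≤ bweight k' a' y :=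
  ENNReal.ofReal_le_ofReal (Real.exp_le_exp.2 h)

theorem conf_kernel_mono {k k' : X → X → ℝ} {a a' : ℝ} (ha : a ≤ a') {A : Set X}
    (hA : MeasurableSet A) (h : ∀ p ∈ A, ∀ q ∈ A, k p q ≤ k' p q) :
    conf k a A ≤ conf k' a' A := by
  refine ENNReal.tsum_le_tsum fun N => ?_
  unfold cterm labint
  gcongr 1
  refine setLIntegral_mono' (MeasurableSet.univ_pi fun _ => hA) fun x hx => ?_
  refine bweight_le_bweight (add_le_add (mul_le_mul_of_nonneg_right ha (Nat.cast_nonneg _)) ?_)
  exact Finset.sum_le_sum fun i _ => Finset.sum_le_sum fun j _ =>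
    h _ (hx i (Set.mem_univ _)) _ (hx j (Set.mem_univ _))

theorem conf_image_le [AddCommGroup X] [MeasurableAdd X]
    [(volume : Measure X).IsAddLeftInvariant] {k : X → X → ℝ} (a : ℝ) (A : Set X) (v : X)
    (hk : ∀ p q, k (v + p) (v + q) = k p q) :
    conf k a ((fun p => v + p) ⁻¹' A) = conf k a A := by
  refine tsum_congr fun N => ?_
  unfold cterm
  congr 1
  unfold labint
  have hmp : MeasurePreserving (fun x : Fin N → X => fun i => v + x i)
      (volume : Measure (Fin N → X)) volume :=
    volume_preserving_pi fun _ => measurePreserving_add_left volume v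
  conv_rhs => rw [← hmp.setLIntegral_comp_preimage_emb
    (MeasurableEquiv.piCongrRight (fun _ : Fin N => MeasurableEquiv.addLeft v)).measurableEmbedding]
  congr 1
  funext x
  simp [bweight, wsum, hk]

end Vale.Agent.P171
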