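import Mathlib

/-! Ekeland's variational principle on a complete metric space. -/

namespace Vale.Agent.P171

open Filter Topology

theorem ekeland_point {α : Type*} [MetricSpace α] [CompleteSpace α] (F : α → ℝ)
    (hF : LowerSemicontinuous F) (hb : ∀ x, 0 ≤ F x) (ε : ℝ) (hε : 0 < ε) (x0 : α) :
    ∃ xs : α, F xs + ε * dist xs x0 ≤ F x0 ∧ ∀ y, F xs - ε * dist y xs ≤ F y := by
  set S : α → Set α := fun y => {x | F x + ε * dist x y ≤ F y} with hS
  have hclosed : ∀ y, IsClosed (S y) := fun y => by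
    have h : LowerSemicontinuous (fun x => F x + ε * dist x y) :=
      hF.add (Continuous.lowerSemicontinuous (by fun_prop))
    exact h.isClosed_preimage (F y)
  have hself : ∀ y, y ∈ S y := fun y => by simp [hS]
  have htrans : ∀ x y z, x ∈ S y → y ∈ S z → x ∈ S z := by
    intro x y z hxy hyz
    simp only [hS, Set.mem_setOf_eq] at *
    nlinarith [dist_triangle x y z]
  have hstep : ∀ (n : ℕ) (y : α), ∃ z ∈ S y, ∀ w ∈ S y, F z ≤ F w + (1 / 2 : ℝ) ^ n := by
    intro n y
    have hne : (F '' S y).Nonempty := ⟨_, y, hself y, rfl⟩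
    obtain ⟨v, ⟨z, hz, rfl⟩, hv⟩ := Real.lt_sInf_add_pos hne (ε := (1 / 2 : ℝ) ^ n) (by positivity)
    refine ⟨z, hz, fun w hw => ?_⟩
    have hbdd : BddBelow (F '' S y) := ⟨0, by rintro _ ⟨u, -, rfl⟩; exact hb u⟩
    have := csInf_le hbdd ⟨w, hw, rfl⟩
    linarith
  choose next hnext hmin using hstep
  let seq : ℕ → α := fun n => Nat.rec x0 (fun k y => next k y) n
  have hseq : ∀ n, seq (n + 1) = next n (seq n) := fun n => rfl
  have hnest : ∀ n k, n ≤ k → seq k ∈ S (seq n) := by
    intro n k hk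
    induction k, hk using Nat.le_induction with
    | base => exact hself _
    | succ k _ ih => exact htrans _ _ _ (hseq k ▸ hnext k (seq k)) ih
  have hsmall : ∀ n, ∀ y ∈ S (seq (n + 1)), ε * dist y (seq (n + 1)) ≤ (1 / 2 : ℝ) ^ n := by
    intro n y hy
    have h1 : y ∈ S (seq n) := htrans _ _ _ hy (hseq n ▸ hnext n (seq n))
    have h2 := hmin n (seq n) y h1
    rw [← hseq n] at h2
    simp only [hS, Set.mem_setOf_eq] at hy
    linarith
  have hcauchy : CauchySeq seq := by
    refine Metric.cauchySeq_iff'.2 fun e he => ?_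
    obtain ⟨n, hn⟩ := exists_pow_lt_of_lt_one (mul_pos he hε) (show (1 / 2 : ℝ) < 1 by norm_num)
    refine ⟨n + 1, fun k hk => ?_⟩
    have h3 := hsmall n _ (hnest (n + 1) k hk)
    nlinarith
  obtain ⟨xs, hxs⟩ := cauchySeq_tendsto_of_complete hcauchy
  have hin : ∀ n, xs ∈ S (seq n) := fun n =>
    (hclosed _).mem_of_tendsto hxs (eventually_atTop.2 ⟨n, fun k hk => hnest n k hk⟩)
  refine ⟨xs, hin 0, fun y => ?_⟩
  by_contra hy
  rw [not_le] at hy
  have hyS : y ∈ S xs := by simp only [hS, Set.mem_setOf_eq]; linarith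
  have hd : Tendsto (fun n => dist y (seq (n + 1))) atTop (𝓝 0) := by
    refine squeeze_zero (fun n => dist_nonneg) (fun n => ?_)
      (g := fun n => (1 / 2 : ℝ) ^ n / ε) ?_
    · have := hsmall n y (htrans _ _ _ hyS (hin (n + 1)))
      rw [le_div_iff₀ hε]; linarith
    · simpa using (tendsto_pow_atTop_nhds_zero_of_lt_one (show (0:ℝ) ≤ 1 / 2 by norm_num)
        (by norm_num)).div_const ε
  have hd' : Tendsto (fun n => dist y (seq (n + 1))) atTop (𝓝 (dist y xs)) :=
    tendsto_const_nhds.dist (hxs.comp (tendsto_add_atTop_nat 1))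
  have h0 := tendsto_nhds_unique hd' hd
  rw [dist_eq_zero] at h0
  rw [h0, dist_self] at hy
  linarith

end Vale.Agent.P171
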