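import Vale.Agent.P171.Config

/-! The potential: a bounded repulsive core minus a nonnegative combination of Kac steps. -/

namespace Vale.Agent.P171

open MeasureTheory Finset Filter Topology

/-- Space. -/
abbrev E : Type := EuclideanSpace ℝ (Fin 3)

/-- Coefficient sequences. -/
abbrev B1 : Type := lp (fun _ : ℕ => ℝ) 1

/-- Normalised step of range `l + 1`. -/
noncomputable def kac (l : ℕ) (r : ℝ) : ℝ := if r < (l : ℝ) + 1 then (((l : ℝ) + 1) ^ 3)⁻¹ else 0

/-- The attraction. -/
noncomputable def att (b : ℕ → ℝ) (r : ℝ) : ℝ := ∑' l, b l * kac l r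

/-- The bounded repulsion. -/
noncomputable def rep (K : ℝ) (r : ℝ) : ℝ := if r ≤ Real.sqrt 3 then K else 0

/-- The pair potential. -/
noncomputable def phi (K : ℝ) (b : ℕ → ℝ) (r : ℝ) : ℝ := rep K r - att b r

/-- The kernel over ordered pairs. -/
noncomputable def kp (K : ℝ) (b : ℕ → ℝ) (p q : E) : ℝ := -(phi K b ‖p - q‖) / 2

/-- Chemical potential corrected for the diagonal. -/
noncomputable def aact (K : ℝ) (b : ℕ → ℝ) (μ : ℝ) : ℝ := μ + phi K b 0 / 2

/-- The cube. -/
def box (L : ℝ) : Set E := {p | ∀ i, p i ∈ Set.Icc 0 L}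

/-- Unit cell of a point. -/
noncomputable def cell (p : E) : Fin 3 → ℤ := fun i => ⌊p i⌋

/-- Number of ordered pairs with equal label. -/
noncomputable def coinc {ι κ : Type*} [Fintype ι] [DecidableEq κ] (a : ι → κ) : ℝ :=
  ∑ i, ∑ j, if a i = a j then (1 : ℝ) else 0

/-- Block label. -/
noncomputable def key (m s : ℕ) (p : E) : Fin 3 → ℤ := fun i => (cell p i + (s : ℤ)) / (m : ℤ)

/-- Offsets. -/
noncomputable def dcube (m : ℕ) : Finset (Fin 3 → ℤ) :=
  Fintype.piFinset fun _ => Finset.Icc (-(m : ℤ)) m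

theorem card_dcube (m : ℕ) : ((dcube m).card : ℝ) = (2 * (m : ℝ) + 1) ^ 3 := by
  have h : (dcube m).card = (2 * m + 1) ^ 3 := by
    simp only [dcube, Fintype.card_piFinset, Int.card_Icc, Finset.prod_const, Finset.card_univ,
      Fintype.card_fin]
    congr 1
    omega
  rw [h]; push_cast; rfl

theorem coinc_nonneg {ι κ : Type*} [Fintype ι] [DecidableEq κ] (a : ι → κ) : 0 ≤ coinc a :=
  Finset.sum_nonneg fun i _ => Finset.sum_nonneg fun j _ => by split_ifs <;> norm_num

theorem coinc_shift_le {ι κ : Type*} [Fintype ι] [DecidableEq κ] [AddCommGroup κ]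
    (a : ι → κ) (d : κ) :
    (∑ i, ∑ j, if a i = a j + d then (1 : ℝ) else 0) ≤ coinc a := by
  classical
  set C := Finset.univ.image a with hC
  let f : κ → ℝ := fun c => ∑ i, if a i = c then 1 else 0
  let g : κ → ℝ := fun c => ∑ j, if a j + d = c then 1 else 0
  have hmem : ∀ i, a i ∈ C := fun i => Finset.mem_image_of_mem _ (Finset.mem_univ i)
  have hfg : (∑ i, ∑ j, if a i = a j + d then (1 : ℝ) else 0) = ∑ c ∈ C, f c * g c := by
    simp only [f, g, Finset.sum_mul_sum]
    conv_rhs => rw [Finset.sum_comm]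
    refine Finset.sum_congr rfl fun i _ => ?_
    conv_rhs => rw [Finset.sum_comm]
    refine Finset.sum_congr rfl fun j _ => ?_
    simp only [ite_mul, one_mul, zero_mul]
    rw [Finset.sum_ite_eq, if_pos (hmem i)]
    by_cases h : a i = a j + d <;> simp [h, eq_comm]
  have hff : ∑ c ∈ C, f c * f c = coinc a := by
    simp only [f, Finset.sum_mul_sum]
    rw [Finset.sum_comm]
    refine Finset.sum_congr rfl fun i _ => ?_
    rw [Finset.sum_comm]
    refine Finset.sum_congr rfl fun j _ => ?_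
    simp only [ite_mul, one_mul, zero_mul]
    rw [Finset.sum_ite_eq, if_pos (hmem i)]
    by_cases h : a i = a j <;> simp [h, eq_comm]
  have hgg : ∑ c ∈ C, g c * g c ≤ coinc a := by
    simp only [g, Finset.sum_mul_sum]
    rw [Finset.sum_comm]
    refine Finset.sum_le_sum fun i _ => ?_
    rw [Finset.sum_comm]
    refine Finset.sum_le_sum fun j _ => ?_
    simp only [ite_mul, one_mul, zero_mul]
    rw [Finset.sum_ite_eq]
    by_cases h : a i = a j
    · split_ifs <;> simp_all
    · split_ifs with h1 h2 <;> norm_num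
      exact absurd (add_right_cancel h2) (Ne.symm h)
  rw [hfg]
  calc ∑ c ∈ C, f c * g c ≤ ∑ c ∈ C, (f c * f c + g c * g c) / 2 :=
        Finset.sum_le_sum fun c _ => by nlinarith [sq_nonneg (f c - g c)]
    _ ≤ coinc a := by rw [← Finset.sum_div, Finset.sum_add_distrib, hff]; linarith

theorem coinc_offsets_le {ι κ : Type*} [Fintype ι] [DecidableEq κ] [AddCommGroup κ]
    (a : ι → κ) (D : Finset κ) :
    (∑ i, ∑ j, if a i - a j ∈ D then (1 : ℝ) else 0) ≤ (D.card : ℝ) * coinc a := by
  have h : ∀ i j, (if a i - a j ∈ D then (1 : ℝ) else 0)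
      = ∑ d ∈ D, if a i = a j + d then (1 : ℝ) else 0 := fun i j => by
    simp only [eq_comm (a := a i), ← eq_sub_iff_add_eq']
    rw [Finset.sum_ite_eq']
  simp only [h]
  rw [Finset.sum_congr rfl fun i _ => Finset.sum_comm, Finset.sum_comm, ← nsmul_eq_mul]
  exact (Finset.sum_le_sum fun d _ => coinc_shift_le a d).trans (by simp)

theorem card_sq_le {ι κ : Type*} [Fintype ι] [DecidableEq κ] (a : ι → κ) (T : Finset κ)
    (h : ∀ i, a i ∈ T) : (Fintype.card ι : ℝ) ^ 2 ≤ (T.card : ℝ) * coinc a := by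
  have h1 : ∑ c ∈ T, (∑ i, if a i = c then (1 : ℝ) else 0) = Fintype.card ι := by
    rw [Finset.sum_comm]
    simp [Finset.sum_ite_eq, h]
  have h2 : ∑ c ∈ T, (∑ i, if a i = c then (1 : ℝ) else 0) ^ 2 = coinc a := by
    simp only [pow_two, Finset.sum_mul_sum]
    rw [Finset.sum_comm]
    refine Finset.sum_congr rfl fun i _ => ?_
    rw [Finset.sum_comm]
    refine Finset.sum_congr rfl fun j _ => ?_
    simp only [ite_mul, one_mul, zero_mul]
    rw [Finset.sum_ite_eq, if_pos (h i)]
    by_cases h' : a i = a j <;> simp [h', eq_comm]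
  rw [← h1, ← h2]
  exact sq_sum_le_card_mul_sum_sq

theorem b1_summable (b : B1) : Summable fun l => |b l| := by
  simpa using (lp.hasSum_norm (p := 1) (by norm_num) b).summable

theorem b1_norm (b : B1) : ‖b‖ = ∑' l, |b l| := by
  simpa using ((lp.hasSum_norm (p := 1) (by norm_num) b).tsum_eq).symm

theorem kac_nonneg (l : ℕ) (r : ℝ) : 0 ≤ kac l r := by
  unfold kac; split_ifs <;> positivity

theorem kac_le_one (l : ℕ) (r : ℝ) : kac l r ≤ 1 := by
  unfold kac; split_ifs
  · exact inv_le_one_of_one_le₀ (one_le_pow₀ (le_add_of_nonneg_left (Nat.cast_nonneg l)))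
  · norm_num

theorem kac_antitone (l : ℕ) : Antitone (kac l) := by
  intro r r' h
  unfold kac
  split_ifs with h1 h2 h2
  · exact le_rfl
  · exact absurd (lt_of_le_of_lt h h1) h2
  · positivity
  · exact le_rfl

theorem summable_att (b : B1) (r : ℝ) : Summable fun l => b l * kac l r :=
  Summable.of_abs <| Summable.of_nonneg_of_le (fun l => abs_nonneg _) (fun l => by
    rw [abs_mul, abs_of_nonneg (kac_nonneg l r)]
    exact mul_le_of_le_one_right (abs_nonneg _) (kac_le_one l r)) (b1_summable b)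

theorem abs_att_sub_le (b b' : B1) (r : ℝ) : |att b r - att b' r| ≤ ‖b - b'‖ := by
  unfold att
  rw [← (summable_att b r).tsum_sub (summable_att b' r), b1_norm, ← Real.norm_eq_abs]
  refine tsum_of_norm_bounded (b1_summable (b - b')).hasSum fun l => ?_
  rw [Real.norm_eq_abs, ← sub_mul, abs_mul, abs_of_nonneg (kac_nonneg l r)]
  exact (mul_le_of_le_one_right (abs_nonneg _) (kac_le_one l r)).trans (by simp)

theorem att_zero (r : ℝ) : att (⇑(0 : B1)) r = 0 := by simp [att]

theorem abs_att_le (b : B1) (r : ℝ) : |att b r| ≤ ‖b‖ := by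
  have := abs_att_sub_le b 0 r
  simpa [att] using this

theorem att_add (b b' : B1) (r : ℝ) : att (⇑(b + b')) r = att b r + att b' r := by
  unfold att
  rw [← (summable_att b r).tsum_add (summable_att b' r)]
  simp [add_mul]

theorem att_single (n : ℕ) (t r : ℝ) : att (⇑(lp.single 1 n t : B1)) r = t * kac n r := by
  unfold att
  rw [tsum_eq_single n]
  · simp
  · intro l hl
    simp [hl]

theorem att_nonneg {b : B1} (hb : ∀ l, 0 ≤ b l) (r : ℝ) : 0 ≤ att b r :=
  tsum_nonneg fun l => mul_nonneg (hb l) (kac_nonneg l r)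

theorem att_antitone {b : B1} (hb : ∀ l, 0 ≤ b l) : Antitone (att b) := fun r r' h =>
  Summable.tsum_le_tsum (fun l => mul_le_mul_of_nonneg_left (kac_antitone l h) (hb l))
    (summable_att b r') (summable_att b r)

theorem measurable_phi (K : ℝ) {b : B1} (hb : ∀ l, 0 ≤ b l) : Measurable (phi K b) :=
  (Measurable.ite measurableSet_Iic measurable_const measurable_const).sub
    (att_antitone hb).measurable

theorem measurable_kp (K : ℝ) {b : B1} (hb : ∀ l, 0 ≤ b l) :
    Measurable fun p : E × E => kp K b p.1 p.2 := by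
  unfold kp
  exact (((measurable_phi K hb).comp (measurable_fst.sub measurable_snd).norm).neg).div_const 2

theorem measurable_cell : Measurable cell :=
  measurable_pi_lambda _ fun i => Int.measurable_floor.comp (by fun_prop)

theorem measurable_key (m s : ℕ) : Measurable (key m s) :=
  (Measurable.of_discrete (f := fun a : Fin 3 → ℤ => fun i => (a i + (s : ℤ)) / (m : ℤ))).comp
    measurable_cell

theorem abs_coord_le (p q : E) (i : Fin 3) : |p i - q i| ≤ ‖p - q‖ := by
  simpa [Real.norm_eq_abs] using PiLp.norm_apply_le (p - q) i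

theorem norm_le_of_coord (p : E) (c : ℝ) (hc : 0 ≤ c) (h : ∀ i, |p i| ≤ c) :
    ‖p‖ ≤ Real.sqrt 3 * c := by
  rw [EuclideanSpace.norm_eq, ← Real.sqrt_sq hc, ← Real.sqrt_mul (by norm_num)]
  refine Real.sqrt_le_sqrt ?_
  rw [← sq_abs c]
  calc ∑ i, ‖p i‖ ^ 2 ≤ ∑ _i : Fin 3, |c| ^ 2 := Finset.sum_le_sum fun i _ => by
        rw [Real.norm_eq_abs]
        exact pow_le_pow_left₀ (abs_nonneg _) ((h i).trans (le_abs_self c)) 2
    _ = _ := by simp

theorem cell_sub_mem {p q : E} {m : ℕ} (h : ‖p - q‖ < m) : cell p - cell q ∈ dcube m := by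
  simp only [dcube, Fintype.mem_piFinset, Finset.mem_Icc, Pi.sub_apply]
  intro i
  have h1 := abs_lt.1 (lt_of_le_of_lt (abs_coord_le p q i) h)
  have a1 := Int.floor_le (p i); have a2 := Int.lt_floor_add_one (p i)
  have a3 := Int.floor_le (q i); have a4 := Int.lt_floor_add_one (q i)
  unfold cell
  constructor
  · have : (-(m : ℤ) : ℝ) - 1 < ((⌊p i⌋ - ⌊q i⌋ : ℤ) : ℝ) := by push_cast; linarith
    have : -(m : ℤ) - 1 < ⌊p i⌋ - ⌊q i⌋ := by exact_mod_cast this
    omega
  · have : ((⌊p i⌋ - ⌊q i⌋ : ℤ) : ℝ) < (m : ℤ) + 1 := by push_cast; linarith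
    have : ⌊p i⌋ - ⌊q i⌋ < (m : ℤ) + 1 := by exact_mod_cast this
    omega

theorem kac_le_indicator (l : ℕ) (p q : E) :
    kac l ‖p - q‖
      ≤ (if cell p - cell q ∈ dcube (l + 1) then (1 : ℝ) else 0) * (((l : ℝ) + 1) ^ 3)⁻¹ := by
  by_cases h : ‖p - q‖ < (l : ℝ) + 1
  · have h' : cell p - cell q ∈ dcube (l + 1) := cell_sub_mem (by push_cast; exact h)
    simp [kac, h, h']
  · simp only [kac, if_neg h]
    split_ifs <;> positivity

theorem dcube_ratio (l : ℕ) : ((dcube (l + 1)).card : ℝ) * (((l : ℝ) + 1) ^ 3)⁻¹ ≤ 27 := by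
  rw [card_dcube, ← div_eq_mul_inv, div_le_iff₀ (by positivity)]
  push_cast
  have : (2 * ((l : ℝ) + 1) + 1) ^ 3 ≤ (3 * ((l : ℝ) + 1)) ^ 3 :=
    pow_le_pow_left₀ (by positivity) (by linarith [Nat.cast_nonneg (α := ℝ) l]) 3
  nlinarith

theorem sum_kac_le {ι : Type*} [Fintype ι] (l : ℕ) (x : ι → E) :
    (∑ i, ∑ j, kac l ‖x i - x j‖) ≤ 27 * coinc (cell ∘ x) := by
  calc (∑ i, ∑ j, kac l ‖x i - x j‖)
      ≤ ∑ i, ∑ j, (if cell (x i) - cell (x j) ∈ dcube (l + 1) then (1 : ℝ) else 0)
          * (((l : ℝ) + 1) ^ 3)⁻¹ :=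
        Finset.sum_le_sum fun i _ => Finset.sum_le_sum fun j _ => kac_le_indicator l _ _
    _ = (∑ i, ∑ j, if (cell ∘ x) i - (cell ∘ x) j ∈ dcube (l + 1) then (1 : ℝ) else 0)
          * (((l : ℝ) + 1) ^ 3)⁻¹ := by simp only [Finset.sum_mul, Function.comp]
    _ ≤ ((dcube (l + 1)).card : ℝ) * coinc (cell ∘ x) * (((l : ℝ) + 1) ^ 3)⁻¹ :=
        mul_le_mul_of_nonneg_right (coinc_offsets_le _ _) (by positivity)
    _ ≤ 27 * coinc (cell ∘ x) := by
        rw [mul_right_comm]
        exact mul_le_mul_of_nonneg_right (dcube_ratio l) (coinc_nonneg _)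

theorem sum_pairs_tsum {ι : Type*} [Fintype ι] (f : ι → ι → ℕ → ℝ)
    (h : ∀ i j, Summable (f i j)) :
    (∑ i, ∑ j, ∑' l, f i j l) = ∑' l, ∑ i, ∑ j, f i j l := by
  rw [Summable.tsum_finsetSum fun i _ => summable_sum fun j _ => h i j]
  exact Finset.sum_congr rfl fun i _ => (Summable.tsum_finsetSum fun j _ => h i j).symm

theorem sum_att_le {ι : Type*} [Fintype ι] {b : B1} (hb : ∀ l, 0 ≤ b l) (x : ι → E) :
    (∑ i, ∑ j, att b ‖x i - x j‖) ≤ 27 * ‖b‖ * coinc (cell ∘ x) := by
  unfold att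
  rw [sum_pairs_tsum _ (fun i j => summable_att b _)]
  calc (∑' l, ∑ i, ∑ j, b l * kac l ‖x i - x j‖)
      ≤ ∑' l, |b l| * (27 * coinc (cell ∘ x)) := by
        refine Summable.tsum_le_tsum (fun l => ?_)
          (summable_sum fun i _ => summable_sum fun j _ => summable_att b _)
          ((b1_summable b).mul_right _)
        simp only [← Finset.mul_sum, abs_of_nonneg (hb l)]
        exact mul_le_mul_of_nonneg_left (sum_kac_le l x) (hb l)
    _ = 27 * ‖b‖ * coinc (cell ∘ x) := by rw [tsum_mul_right, ← b1_norm]; ring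

theorem same_cell_close {p q : E} (h : cell p = cell q) : ‖p - q‖ ≤ Real.sqrt 3 := by
  have h1 := norm_le_of_coord (p - q) 1 zero_le_one fun i => by
    have e : ⌊p i⌋ = ⌊q i⌋ := congrFun h i
    simpa using (Int.abs_sub_lt_one_of_floor_eq_floor e).le
  simpa using h1

theorem wsum_kp_le {ι : Type*} [Fintype ι] {K : ℝ} {b : B1} (hb : ∀ l, 0 ≤ b l)
    (hR : 54 * ‖b‖ ≤ K) (x : ι → E) :
    wsum (kp K b) x ≤ -(K / 4) * coinc (cell ∘ x) := by
  have hK : 0 ≤ K := le_trans (by positivity) hR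
  have hrep : K * coinc (cell ∘ x) ≤ ∑ i, ∑ j, rep K ‖x i - x j‖ := by
    simp only [coinc, Finset.mul_sum]
    refine Finset.sum_le_sum fun i _ => Finset.sum_le_sum fun j _ => ?_
    unfold rep
    by_cases h : cell (x i) = cell (x j)
    · simp [h, same_cell_close h]
    · simp only [Function.comp, if_neg h, mul_zero]
      split_ifs <;> linarith
  have hatt := sum_att_le hb x
  have heq : wsum (kp K b) x
      = -((∑ i, ∑ j, rep K ‖x i - x j‖) - ∑ i, ∑ j, att b ‖x i - x j‖) / 2 := by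
    simp only [wsum, kp, phi, ← Finset.sum_sub_distrib, ← Finset.sum_neg_distrib, Finset.sum_div]
  have hQ := coinc_nonneg (cell ∘ x)
  rw [heq]
  nlinarith [mul_le_mul_of_nonneg_right hR hQ]

theorem aact_le {K : ℝ} {b : B1} (hb : ∀ l, 0 ≤ b l) (μ : ℝ) : aact K b μ ≤ μ + K / 2 := by
  have := att_nonneg hb 0
  simp only [aact, phi, rep, Real.sqrt_nonneg, if_true]
  linarith

theorem sum_sum_symm {ι : Type*} [Fintype ι] [LinearOrder ι] (f : ι → ι → ℝ)
    (h : ∀ i j, f i j = f j i) :
    (∑ i, ∑ j, f i j) = (∑ i, f i i) + 2 * ∑ i, ∑ j, if i < j then f i j else 0 := by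
  have h1 : ∀ i j : ι, f i j = (if i = j then f i j else 0) + ((if i < j then f i j else 0)
      + if j < i then f j i else 0) := fun i j => by
    rcases lt_trichotomy i j with hij | rfl | hij
    · simp [hij, hij.ne, hij.asymm]
    · simp
    · simp [hij, hij.ne', hij.asymm, h i j]
  conv_lhs => arg 2; ext i; arg 2; ext j; rw [h1 i j]
  simp only [Finset.sum_add_distrib, Finset.sum_ite_eq, Finset.mem_univ, if_true]
  rw [Finset.sum_comm (f := fun i j => if j < i then f j i else 0)]
  ring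

/-- The energy of a configuration as a sum over unordered pairs. -/
theorem exponent_eq (K : ℝ) (b : ℕ → ℝ) (μ : ℝ) {N : ℕ} (x : Fin N → E) :
    aact K b μ * (N : ℝ) + wsum (kp K b) x
      = μ * (N : ℝ) - ∑ i, ∑ j, if i < j then phi K b ‖x i - x j‖ else 0 := by
  unfold wsum
  rw [sum_sum_symm (fun i j => kp K b (x i) (x j)) fun i j => by simp [kp, norm_sub_rev]]
  simp only [kp, sub_self, norm_zero, Finset.sum_const, Finset.card_univ, Fintype.card_fin,
    nsmul_eq_mul, aact, Finset.mul_sum]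
  rw [sub_eq_add_neg, ← Finset.sum_neg_distrib, mul_comm μ]
  simp only [← Finset.sum_neg_distrib]
  have : ∀ i j : Fin N, 2 * (if i < j then -phi K b ‖x i - x j‖ / 2 else 0)
      = -(if i < j then phi K b ‖x i - x j‖ else 0) := fun i j => by
    split_ifs <;> ring
  simp only [this]
  ring

theorem separated_card (m : ℕ) (hm : 0 < m) (a b : ℤ) :
    ((Finset.range m).filter fun s : ℕ => (a + (s : ℤ)) / (m : ℤ) ≠ (b + (s : ℤ)) / (m : ℤ)).card
      ≤ (a - b).natAbs := by
  wlog h : a ≤ b generalizing a b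
  · have := this b a (by omega)
    simp only [ne_comm] at this ⊢
    omega
  have hm' : (0 : ℤ) < m := by exact_mod_cast hm
  calc _ ≤ ((Finset.Ioc a b).image fun c : ℤ => ((-c) % (m : ℤ)).toNat).card := by
        refine Finset.card_le_card fun s hs => ?_
        simp only [Finset.mem_filter, Finset.mem_range] at hs
        obtain ⟨hs, hne⟩ := hs
        have hmono : (a + (s : ℤ)) / (m : ℤ) ≤ (b + (s : ℤ)) / (m : ℤ) :=
          Int.ediv_le_ediv hm' (by omega)
        have hlt := lt_of_le_of_ne hmono hne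
        set q := (b + (s : ℤ)) / (m : ℤ) with hq
        simp only [Finset.mem_image, Finset.mem_Ioc]
        refine ⟨q * m - s, ⟨?_, ?_⟩, ?_⟩
        · have := (Int.ediv_lt_iff_lt_mul hm').1 hlt
          omega
        · have := (Int.le_ediv_iff_mul_le hm').1 hq.le
          omega
        · have : (-(q * (m : ℤ) - s)) % (m : ℤ) = s := by
            rw [neg_sub, Int.sub_mul_emod_self_right]
            exact Int.emod_eq_of_lt (by omega) (by omega)
          rw [this]; simp
    _ ≤ (Finset.Ioc a b).card := Finset.card_image_le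
    _ = _ := by simp; omega

theorem separated_card3 (m : ℕ) (hm : 0 < m) (p q : E) (D : ℕ)
    (h : cell p - cell q ∈ dcube D) :
    ((Finset.range m).filter fun s => key m s p ≠ key m s q).card ≤ min m (3 * D) := by
  refine le_min ((Finset.card_filter_le _ _).trans (by simp)) ?_
  have hsub : ((Finset.range m).filter fun s => key m s p ≠ key m s q) ⊆
      (Finset.univ : Finset (Fin 3)).biUnion (fun i => (Finset.range m).filter fun s : ℕ =>
        (cell p i + (s : ℤ)) / (m : ℤ) ≠ (cell q i + (s : ℤ)) / (m : ℤ)) := by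
    intro s hs
    simp only [Finset.mem_filter, key, Function.ne_iff] at hs
    simp only [Finset.mem_biUnion, Finset.mem_univ, true_and, Finset.mem_filter]
    obtain ⟨hs, i, hi⟩ := hs
    exact ⟨i, hs, hi⟩
  refine (Finset.card_le_card hsub).trans (Finset.card_biUnion_le.trans ?_)
  calc _ ≤ ∑ _i : Fin 3, D := Finset.sum_le_sum fun i _ => by
        refine (separated_card m hm _ _).trans ?_
        simp only [dcube, Fintype.mem_piFinset, Finset.mem_Icc, Pi.sub_apply] at h
        have := h i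
        omega
    _ = 3 * D := by simp

/-- Attraction between different blocks. -/
noncomputable def cross {ι : Type*} [Fintype ι] (b : ℕ → ℝ) (m s : ℕ) (x : ι → E) : ℝ :=
  ∑ i, ∑ j, if key m s (x i) ≠ key m s (x j) then att b ‖x i - x j‖ / 2 else 0

/-- Bound on the averaged attraction between different blocks. -/
noncomputable def eta (b : ℕ → ℝ) (m : ℕ) : ℝ :=
  14 * ∑' l, |b l| * min 1 (3 * ((l : ℝ) + 1) / (m : ℝ))

theorem eta_summable (b : B1) (m : ℕ) :
    Summable fun l => |b l| * min 1 (3 * ((l : ℝ) + 1) / (m : ℝ)) :=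
  Summable.of_nonneg_of_le (fun l => mul_nonneg (abs_nonneg _) (le_min zero_le_one (by positivity)))
    (fun l => mul_le_of_le_one_right (abs_nonneg _) (min_le_left _ _)) (b1_summable b)

theorem eta_tendsto (b : B1) : Tendsto (fun m : ℕ => eta b m) atTop (𝓝 0) := by
  have h : Tendsto (fun m : ℕ => ∑' l, |b l| * min 1 (3 * ((l : ℝ) + 1) / (m : ℝ))) atTop
      (𝓝 (∑' _ : ℕ, (0 : ℝ))) := by
    refine tendsto_tsum_of_dominated_convergence (bound := fun l => |b l|) (b1_summable b)
      (fun l => ?_) (Eventually.of_forall fun m l => ?_)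
    · have h1 : Tendsto (fun m : ℕ => 3 * ((l : ℝ) + 1) / (m : ℝ)) atTop (𝓝 0) :=
        tendsto_const_div_atTop_nhds_zero_nat _
      simpa using ((tendsto_const_nhds (x := (1 : ℝ))).min h1).const_mul |b l|
    · rw [Real.norm_eq_abs, abs_mul, abs_abs, abs_of_nonneg
        (le_min (zero_le_one (α := ℝ)) (by positivity : (0 : ℝ) ≤ 3 * ((l : ℝ) + 1) / (m : ℝ)))]
      exact mul_le_of_le_one_right (abs_nonneg _) (min_le_left _ _)
  have := h.const_mul (14 : ℝ)
  simpa [eta] using this

theorem exists_shift {ι : Type*} [Fintype ι] {b : B1} (hb : ∀ l, 0 ≤ b l) (m : ℕ) (hm : 0 < m)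
    (x : ι → E) : ∃ s ∈ Finset.range m, cross b m s x ≤ eta b m * coinc (cell ∘ x) := by
  refine Finset.exists_le_of_sum_le ⟨0, by simpa using hm⟩ ?_
  rw [Finset.sum_const, Finset.card_range, nsmul_eq_mul]
  set Q := coinc (cell ∘ x)
  have hQ : 0 ≤ Q := coinc_nonneg _
  have hswap : (∑ s ∈ Finset.range m, cross b m s x)
      = ∑ i, ∑ j, ∑' l, (((Finset.range m).filter fun s => key m s (x i) ≠ key m s (x j)).card : ℝ)
          * (b l * kac l ‖x i - x j‖ / 2) := by
    unfold cross
    rw [Finset.sum_comm]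
    refine Finset.sum_congr rfl fun i _ => ?_
    rw [Finset.sum_comm]
    refine Finset.sum_congr rfl fun j _ => ?_
    rw [← Finset.sum_filter, Finset.sum_const, nsmul_eq_mul, tsum_mul_left, tsum_div_const]
    rfl
  rw [hswap, sum_pairs_tsum _ (fun i j => ((summable_att b _).div_const 2).mul_left _)]
  unfold eta
  rw [show (m : ℝ) * (14 * (∑' l, |b l| * min 1 (3 * ((l : ℝ) + 1) / (m : ℝ))) * Q)
    = ∑' l, |b l| * min 1 (3 * ((l : ℝ) + 1) / (m : ℝ)) * ((m : ℝ) * 14 * Q) by
      rw [tsum_mul_right]; ring]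
  refine Summable.tsum_le_tsum (fun l => ?_)
    (summable_sum fun i _ => summable_sum fun j _ => ((summable_att b _).div_const 2).mul_left _)
    ((eta_summable b m).mul_right _)
  rw [abs_of_nonneg (hb l)]
  set M := min (m : ℝ) (3 * ((l : ℝ) + 1)) with hM
  have hM0 : 0 ≤ M := le_min (by positivity) (by positivity)
  have hmin : min 1 (3 * ((l : ℝ) + 1) / (m : ℝ)) * (m : ℝ) = M := by
    have hm' : (0 : ℝ) < m := by exact_mod_cast hm
    rw [min_mul_of_nonneg _ _ hm'.le, one_mul, div_mul_cancel₀ _ hm'.ne']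
  calc ∑ i, ∑ j, (((Finset.range m).filter fun s => key m s (x i) ≠ key m s (x j)).card : ℝ)
          * (b l * kac l ‖x i - x j‖ / 2)
      ≤ ∑ i, ∑ j, (M * b l / 2) * kac l ‖x i - x j‖ := by
        refine Finset.sum_le_sum fun i _ => Finset.sum_le_sum fun j _ => ?_
        by_cases h : ‖x i - x j‖ < (l : ℝ) + 1
        · have hd : cell (x i) - cell (x j) ∈ dcube (l + 1) := cell_sub_mem (by push_cast; exact h)
          have hc := separated_card3 m hm (x i) (x j) (l + 1) hd
          have hc' : (((Finset.range m).filter fun s => key m s (x i) ≠ key m s (x j)).card : ℝ)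
              ≤ M := le_min (by exact_mod_cast hc.trans (min_le_left _ _))
                (by exact_mod_cast hc.trans (min_le_right _ _))
          have := mul_le_mul_of_nonneg_right hc'
            (div_nonneg (mul_nonneg (hb l) (kac_nonneg l ‖x i - x j‖)) two_pos.le)
          linarith
        · simp [kac, h]
    _ ≤ (M * b l / 2) * (27 * Q) := by
        simp only [← Finset.mul_sum]
        exact mul_le_mul_of_nonneg_left (sum_kac_le l x)
          (div_nonneg (mul_nonneg hM0 (hb l)) two_pos.le)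
    _ ≤ b l * min 1 (3 * ((l : ℝ) + 1) / (m : ℝ)) * ((m : ℝ) * 14 * Q) := by
        rw [← hmin]
        have h0 : (0 : ℝ) ≤ min 1 (3 * ((l : ℝ) + 1) / (m : ℝ)) * (m : ℝ) * b l * Q :=
          mul_nonneg (mul_nonneg (hmin ▸ hM0) (hb l)) hQ
        nlinarith

theorem key_diff {p q : E} {m s : ℕ} (hm : 0 < m) (h : ‖p - q‖ < (m : ℝ)) :
    key m s p - key m s q ∈ dcube 1 := by
  have hd := cell_sub_mem (m := m) h
  simp only [dcube, Fintype.mem_piFinset, Finset.mem_Icc, Pi.sub_apply] at hd ⊢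
  intro i
  have hi := hd i
  have hm' : (0 : ℤ) < m := by exact_mod_cast hm
  unfold key
  have h1 : (cell p i + (s : ℤ)) / (m : ℤ) ≤ (cell q i + (s : ℤ)) / (m : ℤ) + 1 := by
    rw [← Int.add_mul_ediv_right _ 1 hm'.ne', one_mul]
    exact Int.ediv_le_ediv hm' (by omega)
  have h2 : (cell q i + (s : ℤ)) / (m : ℤ) ≤ (cell p i + (s : ℤ)) / (m : ℤ) + 1 := by
    rw [← Int.add_mul_ediv_right _ 1 hm'.ne', one_mul]
    exact Int.ediv_le_ediv hm' (by omega)
  push_cast
  omega

theorem sum_kac_block {ι : Type*} [Fintype ι] (l s : ℕ) (x : ι → E) :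
    (∑ i, ∑ j, kac l ‖x i - x j‖)
      ≤ 27 * (((l : ℝ) + 1) ^ 3)⁻¹ * coinc (key (l + 1) s ∘ x) := by
  calc (∑ i, ∑ j, kac l ‖x i - x j‖)
      ≤ ∑ i, ∑ j, (if key (l + 1) s (x i) - key (l + 1) s (x j) ∈ dcube 1 then (1 : ℝ) else 0)
          * (((l : ℝ) + 1) ^ 3)⁻¹ := by
        refine Finset.sum_le_sum fun i _ => Finset.sum_le_sum fun j _ => ?_
        by_cases h : ‖x i - x j‖ < (l : ℝ) + 1
        · have h' := key_diff (m := l + 1) (s := s) (Nat.succ_pos l) (by push_cast; exact h)
          simp [kac, h, h']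
        · simp only [kac, if_neg h]
          split_ifs <;> positivity
    _ = (∑ i, ∑ j, if (key (l + 1) s ∘ x) i - (key (l + 1) s ∘ x) j ∈ dcube 1 then (1 : ℝ)
          else 0) * (((l : ℝ) + 1) ^ 3)⁻¹ := by simp only [Finset.sum_mul, Function.comp]
    _ ≤ ((dcube 1).card : ℝ) * coinc (key (l + 1) s ∘ x) * (((l : ℝ) + 1) ^ 3)⁻¹ :=
        mul_le_mul_of_nonneg_right (coinc_offsets_le _ _) (by positivity)
    _ = 27 * (((l : ℝ) + 1) ^ 3)⁻¹ * coinc (key (l + 1) s ∘ x) := by
        rw [card_dcube]; norm_num; ring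

end Vale.Agent.P171
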