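import Vale.Agent.P171.Pressure

/-! Lower bound for the pressure from one sparse lattice arrangement. -/

namespace Vale.Agent.P171

open MeasureTheory Finset Filter Topology
open scoped ENNReal

/-- The unit jitter cube at a site of the sparse lattice. -/
def site (u : Fin 3 → ℕ) : Set E := {p | ∀ i, p i ∈ Set.Icc (3 * (u i : ℝ)) (3 * (u i : ℝ) + 1)}

theorem trial_pairs {k l : ℕ} (hl : 15 ≤ l)
    (y : {u // u ∈ Fintype.piFinset (fun _ : Fin 3 => Finset.range k)} → E)
    (hy : ∀ u, y u ∈ site u.1) :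
    ((k - (l + 1) / 8 : ℕ) : ℝ) ^ 3 / 1024
      ≤ ∑ u, ∑ v, if u = v then 0 else kac l ‖y u - y v‖ := by
  classical
  set m : ℕ := l + 1 with hm
  set r : ℕ := m / 8 with hr
  set U := Fintype.piFinset (fun _ : Fin 3 => Finset.range (k - r)) with hU
  set Dd := (Fintype.piFinset (fun _ : Fin 3 => Finset.range (r + 1))).erase 0 with hDd
  have hmem : ∀ z : {z // z ∈ U ×ˢ Dd}, z.1.1 ∈ Fintype.piFinset (fun _ : Fin 3 => Finset.range k) ∧ z.1.1 + z.1.2 ∈ Fintype.piFinset (fun _ : Fin 3 => Finset.range k) ∧ z.1.1 ≠ z.1.1 + z.1.2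
      ∧ ∀ i, z.1.2 i ≤ r := by
    rintro ⟨⟨u, d⟩, hz⟩
    simp only [U, Dd, Finset.mem_product, Fintype.mem_piFinset, Finset.mem_range,
      Finset.mem_erase] at hz
    obtain ⟨hu, hd0, hd⟩ := hz
    refine ⟨?_, ?_, ?_, ?_⟩
    · simp only [Fintype.mem_piFinset, Finset.mem_range]
      intro i; have := hu i; omega
    · simp only [Fintype.mem_piFinset, Finset.mem_range, Pi.add_apply]
      intro i; have := hu i; have := hd i; omega
    · intro h
      apply hd0
      funext i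
      have := congrFun h i
      simp only [Pi.add_apply] at this
      simp only [Pi.zero_apply]
      omega
    · intro i; have := hd i; dsimp only; omega
  let φ : {z // z ∈ U ×ˢ Dd} → {u // u ∈ Fintype.piFinset (fun _ : Fin 3 => Finset.range k)} ×
      {u // u ∈ Fintype.piFinset (fun _ : Fin 3 => Finset.range k)} :=
    fun z => (⟨z.1.1, (hmem z).1⟩, ⟨z.1.1 + z.1.2, (hmem z).2.1⟩)
  have hinj : Function.Injective φ := by
    intro z z' h
    simp only [φ, Prod.mk.injEq, Subtype.mk.injEq] at h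
    apply Subtype.ext
    exact Prod.ext h.1 (add_left_cancel (h.1 ▸ h.2))
  have hval : ∀ z, (((m : ℝ)) ^ 3)⁻¹
      ≤ (if (φ z).1 = (φ z).2 then 0 else kac l ‖y (φ z).1 - y (φ z).2‖) := by
    intro z
    rw [if_neg (by simp only [φ, ne_eq, Subtype.mk.injEq]; exact (hmem z).2.2.1)]
    have hd : ∀ i, |(y (φ z).1 - y (φ z).2) i| ≤ 3 * (r : ℝ) + 1 := by
      intro i
      have h1 := hy (φ z).1 i
      have h2 := hy (φ z).2 i
      simp only [φ, Set.mem_Icc, Pi.add_apply, Nat.cast_add] at h1 h2 ⊢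
      have h3 : ((z.1.2 i : ℕ) : ℝ) ≤ r := by exact_mod_cast (hmem z).2.2.2 i
      have h4 : (0 : ℝ) ≤ ((z.1.2 i : ℕ) : ℝ) := Nat.cast_nonneg _
      simp only [WithLp.ofLp_sub, Pi.sub_apply]
      rw [abs_le]
      constructor <;> linarith
    have hn := norm_le_of_coord (y (φ z).1 - y (φ z).2) _ (by positivity) hd
    have hs2 : Real.sqrt 3 < 2 := (Real.sqrt_lt' two_pos).2 (by norm_num)
    have h5 : Real.sqrt 3 * (3 * (r : ℝ) + 1) < 2 * (3 * (r : ℝ) + 1) :=
      mul_lt_mul_of_pos_right hs2 (by positivity)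
    have h6 : (6 * r + 2 : ℕ) ≤ m := by omega
    have h7 : 2 * (3 * (r : ℝ) + 1) ≤ (l : ℝ) + 1 := by
      have : ((6 * r + 2 : ℕ) : ℝ) ≤ ((l + 1 : ℕ) : ℝ) := by exact_mod_cast h6
      push_cast at this
      linarith
    simp only [kac, if_pos (show ‖y (φ z).1 - y (φ z).2‖ < (l : ℝ) + 1 by linarith)]
    simp [hm]
  have hcard : ((k - r : ℕ) : ℝ) ^ 3 / 1024 ≤ ((U ×ˢ Dd).card : ℝ) * (((m : ℝ)) ^ 3)⁻¹ := by
    have h1 : (U ×ˢ Dd).card = (k - r) ^ 3 * ((r + 1) ^ 3 - 1) := by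
      rw [Finset.card_product, hU, hDd, Finset.card_erase_of_mem (by simp [Fintype.mem_piFinset])]
      simp [Fintype.card_piFinset]
    have h2 : m ≤ 8 * (r + 1) := by omega
    have h3 : (m : ℝ) ^ 3 ≤ 512 * (((r + 1) ^ 3 : ℕ) : ℝ) := by
      have : ((m : ℕ) : ℝ) ≤ ((8 * (r + 1) : ℕ) : ℝ) := by exact_mod_cast h2
      push_cast at this ⊢
      calc (m : ℝ) ^ 3 ≤ (8 * ((r : ℝ) + 1)) ^ 3 := pow_le_pow_left₀ (by positivity) this 3
        _ = _ := by ring
    have h4 : (4096 : ℝ) ≤ (m : ℝ) ^ 3 := by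
      have : (16 : ℝ) ≤ (m : ℝ) := by exact_mod_cast (by omega : 16 ≤ m)
      calc (4096 : ℝ) = 16 ^ 3 := by norm_num
        _ ≤ _ := pow_le_pow_left₀ (by norm_num) this 3
    rw [h1, ← div_eq_mul_inv, le_div_iff₀ (by linarith), Nat.cast_mul, Nat.cast_pow,
      Nat.cast_sub (Nat.one_le_pow _ _ (Nat.succ_pos r)), Nat.cast_one]
    have h5 := mul_le_mul_of_nonneg_left
      (show (m : ℝ) ^ 3 / 1024 ≤ (((r + 1) ^ 3 : ℕ) : ℝ) - 1 by linarith)
      (pow_nonneg (Nat.cast_nonneg (α := ℝ) (k - r)) 3)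
    linarith
  refine hcard.trans ?_
  rw [← Fintype.sum_prod_type' (fun u v => if u = v then 0 else kac l ‖y u - y v‖)]
  calc ((U ×ˢ Dd).card : ℝ) * (((m : ℝ)) ^ 3)⁻¹
      = ∑ _z : {z // z ∈ U ×ˢ Dd}, (((m : ℝ)) ^ 3)⁻¹ := by
        rw [Finset.sum_const, Finset.card_univ, Fintype.card_coe, nsmul_eq_mul]
    _ ≤ ∑ z : {z // z ∈ U ×ˢ Dd},
          (if (φ z).1 = (φ z).2 then 0 else kac l ‖y (φ z).1 - y (φ z).2‖) :=
        Finset.sum_le_sum fun z _ => hval z
    _ = ∑ p ∈ Finset.univ.image φ, if p.1 = p.2 then 0 else kac l ‖y p.1 - y p.2‖ := by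
        rw [Finset.sum_image fun a _ b _ h => hinj h]
    _ ≤ _ := Finset.sum_le_sum_of_subset_of_nonneg (Finset.subset_univ _) fun p _ _ => by
        split_ifs
        · exact le_rfl
        · exact kac_nonneg _ _

theorem trial_exponent {K : ℝ} {b : B1} (hb : Good K b) (μ : ℝ) (k : ℕ) (F : Finset ℕ)
    (hF : ∀ l ∈ F, 15 ≤ l)
    (y : {u // u ∈ Fintype.piFinset (fun _ : Fin 3 => Finset.range k)} → E)
    (hy : ∀ u, y u ∈ site u.1) :
    μ * (k : ℝ) ^ 3 + ∑ l ∈ F, b l * ((k - (l + 1) / 8 : ℕ) : ℝ) ^ 3 / 2048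
      ≤ aact K b μ * (Fintype.card {u // u ∈ Fintype.piFinset (fun _ : Fin 3 => Finset.range k)} : ℝ)
        + wsum (kp K b) y := by
  classical
  have hN : Fintype.card {u // u ∈ Fintype.piFinset (fun _ : Fin 3 => Finset.range k)} = k ^ 3 := by
    rw [Fintype.card_coe]; simp [Fintype.card_piFinset]
  have hkp : ∀ u v, kp K b (y u) (y v) = (if u = v then -(phi K b 0) / 2 else 0)
      + (if u = v then 0 else att b ‖y u - y v‖ / 2) := by
    intro u v
    by_cases h : u = v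
    · simp [h, kp]
    · have hne : u.1 ≠ v.1 := fun e => h (Subtype.ext e)
      obtain ⟨i, hi⟩ := Function.ne_iff.1 hne
      have h2 : 2 ≤ |y u i - y v i| := by
        have hu := hy u i
        have hv := hy v i
        simp only [Set.mem_Icc] at hu hv
        rcases lt_or_gt_of_ne hi with h' | h'
        · have : (u.1 i : ℝ) + 1 ≤ (v.1 i : ℝ) := by exact_mod_cast h'
          rw [abs_sub_comm]
          exact le_trans (by linarith) (le_abs_self _)
        · have : (v.1 i : ℝ) + 1 ≤ (u.1 i : ℝ) := by exact_mod_cast h'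
          exact le_trans (by linarith) (le_abs_self _)
      have h3 : ¬ ‖y u - y v‖ ≤ Real.sqrt 3 := by
        intro h'
        have : Real.sqrt 3 < 2 := (Real.sqrt_lt' two_pos).2 (by norm_num)
        linarith [abs_coord_le (y u) (y v) i]
      simp only [kp, phi, rep, if_neg h3, if_neg h]
      ring
  have hw : wsum (kp K b) y = (k : ℝ) ^ 3 * (-(phi K b 0) / 2)
      + ∑ u, ∑ v, if u = v then 0 else att b ‖y u - y v‖ / 2 := by
    simp only [wsum, hkp, Finset.sum_add_distrib, Finset.sum_ite_eq, Finset.mem_univ, if_true,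
      Finset.sum_const, Finset.card_univ, hN, nsmul_eq_mul]
    push_cast
    ring
  have hatt : ∑ l ∈ F, b l * ((k - (l + 1) / 8 : ℕ) : ℝ) ^ 3 / 2048
      ≤ ∑ u, ∑ v, if u = v then 0 else att b ‖y u - y v‖ / 2 := by
    calc ∑ l ∈ F, b l * ((k - (l + 1) / 8 : ℕ) : ℝ) ^ 3 / 2048
        ≤ ∑ l ∈ F, b l / 2 * ∑ u, ∑ v, if u = v then 0 else kac l ‖y u - y v‖ := by
          refine Finset.sum_le_sum fun l hl => ?_
          have := mul_le_mul_of_nonneg_left (trial_pairs (hF l hl) y hy)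
            (div_nonneg (hb.1 l) two_pos.le)
          linarith
      _ = ∑ u, ∑ v, ∑ l ∈ F, b l / 2 * (if u = v then 0 else kac l ‖y u - y v‖) := by
          simp only [Finset.mul_sum]
          rw [Finset.sum_comm]
          exact Finset.sum_congr rfl fun u _ => Finset.sum_comm
      _ ≤ _ := by
          refine Finset.sum_le_sum fun u _ => Finset.sum_le_sum fun v _ => ?_
          by_cases h : u = v
          · simp [h]
          · simp only [if_neg h]
            have := (summable_att b ‖y u - y v‖).sum_le_tsum F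
              (fun l _ => mul_nonneg (hb.1 l) (kac_nonneg _ _))
            unfold att
            rw [le_div_iff₀ two_pos, Finset.sum_mul]
            refine le_trans (le_of_eq (Finset.sum_congr rfl fun l _ => by ring)) this
  rw [hN, hw, aact]
  push_cast
  linarith

theorem measurableSet_site (u : Fin 3 → ℕ) : MeasurableSet (site u) :=
  measurableSet_coord_box (fun i => 3 * (u i : ℝ)) fun i => 3 * (u i : ℝ) + 1

theorem volume_site (u : Fin 3 → ℕ) : volume (site u) = 1 := by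
  unfold site
  rw [volume_coord_box (fun i => 3 * (u i : ℝ)) fun i => 3 * (u i : ℝ) + 1]
  simp

theorem trial_lxi {K : ℝ} {b : B1} (hb : Good K b) (μ : ℝ) (k : ℕ) (F : Finset ℕ)
    (hF : ∀ l ∈ F, 15 ≤ l) :
    μ * (k : ℝ) ^ 3 + ∑ l ∈ F, b l * ((k - (l + 1) / 8 : ℕ) : ℝ) ^ 3 / 2048
      ≤ lxi K b μ (3 * (k : ℝ)) := by
  classical
  refine le_lxi hb (by positivity) ?_
  set g := μ * (k : ℝ) ^ 3 + ∑ l ∈ F, b l * ((k - (l + 1) / 8 : ℕ) : ℝ) ^ 3 / 2048 with hg
  set S := {u // u ∈ Fintype.piFinset (fun _ : Fin 3 => Finset.range k)}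
  set N := Fintype.card S with hN
  let e : Fin N ≃ S := (Fintype.equivFin S).symm
  let P : Equiv.Perm (Fin N) → Set (Fin N → E) :=
    fun σ => Set.pi Set.univ fun i => site (e (σ i)).1
  have hPm : ∀ σ, MeasurableSet (P σ) := fun σ =>
    MeasurableSet.univ_pi fun i => measurableSet_site _
  have hdisj : ∀ u v : S, ∀ p, p ∈ site u.1 → p ∈ site v.1 → u = v := by
    intro u v p hu hv
    by_contra h
    obtain ⟨i, hi⟩ := Function.ne_iff.1 fun e => h (Subtype.ext e)
    have h1 := hu i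
    have h2 := hv i
    simp only [Set.mem_Icc] at h1 h2
    rcases lt_or_gt_of_ne hi with h' | h'
    · have : (u.1 i : ℝ) + 1 ≤ (v.1 i : ℝ) := by exact_mod_cast h'
      linarith
    · have : (v.1 i : ℝ) + 1 ≤ (u.1 i : ℝ) := by exact_mod_cast h'
      linarith
  have hPd : Pairwise (Function.onFun Disjoint P) := by
    intro σ τ hne
    rw [Function.onFun, Set.disjoint_left]
    intro x hx hx'
    apply hne
    ext i
    have := e.injective (hdisj (e (σ i)) (e (τ i)) (x i) (hx i (Set.mem_univ i)) (hx' i (Set.mem_univ i)))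
    rw [this]
  have hsub : (⋃ σ, P σ) ⊆ Set.pi Set.univ (fun _ : Fin N => box (3 * (k : ℝ))) := by
    intro x hx i _ c
    obtain ⟨σ, hσ⟩ := Set.mem_iUnion.1 hx
    have h := hσ i (Set.mem_univ i) c
    have hu : (e (σ i)).1 c < k := by
      have := (e (σ i)).2
      simp only [Fintype.mem_piFinset, Finset.mem_range] at this
      exact this c
    have hu' : ((e (σ i)).1 c : ℝ) + 1 ≤ k := by exact_mod_cast hu
    have h0 : (0 : ℝ) ≤ ((e (σ i)).1 c : ℝ) := Nat.cast_nonneg _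
    simp only [Set.mem_Icc] at h ⊢
    constructor <;> linarith
  have hvol : ∀ σ, volume (P σ) = 1 := fun σ => by
    simp [P, volume_pi_pi, volume_site]
  have hval : ∀ σ, ENNReal.ofReal (Real.exp g)
      ≤ ∫⁻ x in P σ, bweight (kp K b) (aact K b μ) x := by
    intro σ
    have hle : ∀ x ∈ P σ, ENNReal.ofReal (Real.exp g) ≤ bweight (kp K b) (aact K b μ) x := by
      intro x hx
      let f : Fin N ≃ S := σ.trans e
      have hy : ∀ u : S, x (f.symm u) ∈ site u.1 := fun u => by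
        have h : x (f.symm u) ∈ site (f (f.symm u)).1 := hx (f.symm u) (Set.mem_univ _)
        rwa [f.apply_symm_apply] at h
      refine ENNReal.ofReal_le_ofReal (Real.exp_le_exp.2 ?_)
      have h := trial_exponent hb μ k F hF (fun u => x (f.symm u)) hy
      have hw : wsum (kp K b) (fun u => x (f.symm u)) = wsum (kp K b) x := by
        unfold wsum
        rw [f.symm.sum_comp (fun i => ∑ v : S, kp K b (x i) (x (f.symm v)))]
        exact Finset.sum_congr rfl fun i _ => f.symm.sum_comp (fun j => kp K b (x i) (x j))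
      rw [hw] at h
      rw [Fintype.card_fin]
      exact h
    calc ENNReal.ofReal (Real.exp g) = ∫⁻ _x in P σ, ENNReal.ofReal (Real.exp g) := by
          rw [setLIntegral_const, hvol, mul_one]
      _ ≤ _ := setLIntegral_mono' (hPm σ) hle
  calc ENNReal.ofReal (Real.exp g)
      = (N.factorial : ℝ≥0∞)⁻¹ * ∑ _σ : Equiv.Perm (Fin N), ENNReal.ofReal (Real.exp g) := by
        rw [Finset.sum_const, Finset.card_univ, Fintype.card_perm, Fintype.card_fin, nsmul_eq_mul,
          ← mul_assoc, ENNReal.inv_mul_cancel (by simp [Nat.factorial_ne_zero]) (by simp), one_mul]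
    _ ≤ (N.factorial : ℝ≥0∞)⁻¹
          * ∑ σ : Equiv.Perm (Fin N), ∫⁻ x in P σ, bweight (kp K b) (aact K b μ) x := by
        gcongr with σ
        exact hval σ
    _ = (N.factorial : ℝ≥0∞)⁻¹ * ∫⁻ x in ⋃ σ, P σ, bweight (kp K b) (aact K b μ) x := by
        rw [lintegral_iUnion hPm hPd, tsum_fintype]
    _ ≤ cterm (kp K b) (aact K b μ) (box (3 * (k : ℝ))) N := by
        unfold cterm labint
        gcongr
    _ ≤ _ := ENNReal.le_tsum N

theorem trial_finite {K : ℝ} {b : B1} (hb : Good K b) (μ : ℝ) (F : Finset ℕ)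
    (hF : ∀ l ∈ F, 15 ≤ l) :
    μ / 27 + (∑ l ∈ F, b l) / 55296 ≤ pres K b μ := by
  have hratio : ∀ r : ℕ,
      Tendsto (fun k : ℕ => ((k - r : ℕ) : ℝ) / (3 * (k : ℝ) + 2)) atTop (𝓝 (1 / 3)) := by
    intro r
    have h : Tendsto (fun k : ℕ => (1 - (r : ℝ) / k) / (3 + 2 / (k : ℝ))) atTop (𝓝 (1 / 3)) := by
      have := ((tendsto_const_div_atTop_nhds_zero_nat (r : ℝ)).const_sub 1).div
        ((tendsto_const_div_atTop_nhds_zero_nat (2 : ℝ)).const_add 3) (by norm_num)
      simpa [Pi.div_def] using this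
    refine h.congr' ?_
    filter_upwards [eventually_ge_atTop (r + 1)] with k hk
    have hk0 : (0 : ℝ) < k := by exact_mod_cast (by omega : 0 < k)
    rw [Nat.cast_sub (by omega)]
    field_simp
  have hlim : Tendsto (fun k : ℕ => μ * (((k - 0 : ℕ) : ℝ) / (3 * (k : ℝ) + 2)) ^ 3
      + ∑ l ∈ F, b l * (((k - (l + 1) / 8 : ℕ) : ℝ) / (3 * (k : ℝ) + 2)) ^ 3 / 2048) atTop
      (𝓝 (μ * (1 / 3) ^ 3 + ∑ l ∈ F, b l * (1 / 3) ^ 3 / 2048)) :=
    (((hratio 0).pow 3).const_mul μ).add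
      (tendsto_finset_sum F fun l _ => (((hratio _).pow 3).const_mul (b l)).div_const 2048)
  have hval : μ * (1 / 3 : ℝ) ^ 3 + ∑ l ∈ F, b l * (1 / 3) ^ 3 / 2048
      = μ / 27 + (∑ l ∈ F, b l) / 55296 := by
    rw [← Finset.sum_div, ← Finset.sum_mul]; ring
  rw [← hval]
  refine le_of_tendsto hlim (Eventually.of_forall fun k => ?_)
  have h1 := trial_lxi hb μ k F hF
  have h2 := lxi_le_pres hb μ (show (0 : ℝ) ≤ 3 * (k : ℝ) by positivity)
  have h3 : 0 < (3 * (k : ℝ) + 2) ^ 3 := by positivity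
  calc μ * (((k - 0 : ℕ) : ℝ) / (3 * (k : ℝ) + 2)) ^ 3
        + ∑ l ∈ F, b l * (((k - (l + 1) / 8 : ℕ) : ℝ) / (3 * (k : ℝ) + 2)) ^ 3 / 2048
      = (μ * (k : ℝ) ^ 3 + ∑ l ∈ F, b l * ((k - (l + 1) / 8 : ℕ) : ℝ) ^ 3 / 2048)
          / (3 * (k : ℝ) + 2) ^ 3 := by
        rw [add_div, Finset.sum_div, Nat.sub_zero]
        refine congrArg₂ (· + ·) (by rw [div_pow]; ring) (Finset.sum_congr rfl fun l _ => ?_)
        rw [div_pow]; ring
    _ ≤ _ := by rw [div_le_iff₀ h3]; linarith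

/-- Total of the coefficients with index at least fifteen. -/
noncomputable def tailS (b : B1) : ℝ := ‖b‖ - ∑ l ∈ Finset.range 15, b l

theorem trial_tail {K : ℝ} {b : B1} (hb : Good K b) (μ : ℝ) :
    μ / 27 + tailS b / 55296 ≤ pres K b μ := by
  have hsum : HasSum (fun l => b l) ‖b‖ := by
    have h := (b1_summable b).hasSum
    rw [← b1_norm] at h
    simpa [abs_of_nonneg (hb.1 _)] using h
  have h := hsum.tendsto_sum_nat
  have h' : Tendsto (fun n : ℕ => μ / 27 + (∑ l ∈ Finset.range n, b l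
      - ∑ l ∈ Finset.range 15, b l) / 55296) atTop (𝓝 (μ / 27 + tailS b / 55296)) :=
    ((h.sub_const _).div_const 55296).const_add (μ / 27)
  refine le_of_tendsto h' ?_
  filter_upwards [eventually_ge_atTop 15] with n hn
  rw [← Finset.sum_Ico_eq_sub _ hn]
  exact trial_finite hb μ _ fun l hl => (Finset.mem_Ico.1 hl).1

end Vale.Agent.P171
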