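import Vale.Agent.P171.Pressure

/-! Upper bound for the pressure after adding a long Kac step. -/

namespace Vale.Agent.P171

open MeasureTheory Finset Filter Topology
open scoped ENNReal

theorem conf_combination {σ : Type*} (S : Finset σ) (C : σ → ℝ≥0∞) (k' : σ → E → E → ℝ)
    (hk' : ∀ s ∈ S, Measurable fun p : E × E => k' s p.1 p.2) (a' : σ → ℝ)
    (k : E → E → ℝ) (a : ℝ) {A : Set E} (hA : MeasurableSet A)
    (h : ∀ (N : ℕ) (x : Fin N → E), (∀ i, x i ∈ A) →
      bweight k a x ≤ ∑ s ∈ S, C s * bweight (k' s) (a' s) x) :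
    conf k a A ≤ ∑ s ∈ S, C s * conf (k' s) (a' s) A := by
  unfold conf
  simp only [← ENNReal.tsum_mul_left]
  rw [← Summable.tsum_finsetSum (fun _ _ => ENNReal.summable)]
  refine ENNReal.tsum_le_tsum fun N => ?_
  unfold cterm labint
  calc (N.factorial : ℝ≥0∞)⁻¹ * ∫⁻ x in Set.pi Set.univ (fun _ : Fin N => A), bweight k a x
      ≤ (N.factorial : ℝ≥0∞)⁻¹ * ∫⁻ x in Set.pi Set.univ (fun _ : Fin N => A),
          ∑ s ∈ S, C s * bweight (k' s) (a' s) x := by
        gcongr 1
        exact setLIntegral_mono' (MeasurableSet.univ_pi fun _ => hA) fun x hx =>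
          h N x fun i => hx i (Set.mem_univ i)
    _ = _ := by
        rw [lintegral_finsetSum _ (fun s hs => (measurable_bweight (hk' s hs) _).const_mul _),
          Finset.mul_sum]
        refine Finset.sum_congr rfl fun s hs => ?_
        rw [lintegral_const_mul _ (measurable_bweight (hk' s hs) _)]
        ring

theorem conf_const_le {c V : ℝ} {A : Set E} (hV : 0 ≤ V) (hA : MeasurableSet A)
    (hvol : volume A ≤ ENNReal.ofReal V) :
    conf (fun _ _ : E => (0 : ℝ)) c A ≤ ENNReal.ofReal (Real.exp (V * Real.exp c)) := by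
  simpa using conf_le_exp (k := fun _ _ : E => (0 : ℝ)) (a := c) (c := c) (d := 0) hV hA hvol
    (fun N x _ => by simp [wsum])

theorem cell_mem_box {m : ℕ} {p : E} (hp : p ∈ box (m : ℝ)) :
    cell p ∈ Fintype.piFinset (fun _ : Fin 3 => Finset.Icc (0 : ℤ) (m : ℤ)) := by
  simp only [Fintype.mem_piFinset, Finset.mem_Icc]
  intro i
  constructor
  · exact Int.floor_nonneg.2 (hp i).1
  · exact Int.floor_le_iff.2 (by push_cast; linarith [(hp i).2])

/-- One block, with the quadratic tilt coming from the Kac step. -/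
theorem conf_block_le {K : ℝ} {b : B1} (hb : Good K b) {μ u t D ρ : ℝ} (l : ℕ) (hu : 0 ≤ u)
    (ht : 0 ≤ t) (htK : 14 * t ≤ K / 64) (hD : 0 ≤ D) (hρ : 0 ≤ ρ) (htD : 14 * t * D ≤ u)
    (hDK : Real.exp (μ + K / 2) ≤ K * D ^ 2 / 64) :
    conf (fun p q => kp K b p q + 14 * t / ((l : ℝ) + 1) ^ 3) (aact K b μ) (box ((l : ℝ) + 1))
      ≤ ENNReal.ofReal (Real.exp (Real.log 3 + max 0 (max
        (14 * t * ρ ^ 2 * ((l : ℝ) + 1) ^ 3 + ((l : ℝ) + 1 + 2) ^ 3 * pres K b μ)
        (-(u - 14 * t * D) * ρ * ((l : ℝ) + 1) ^ 3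
          + ((l : ℝ) + 1 + 2) ^ 3 * pres K b (μ + u))))) := by
  set w : ℝ := (l : ℝ) + 1 with hw
  set V : ℝ := w ^ 3 with hV
  have hw0 : 0 ≤ w := by positivity
  have hw1 : 1 ≤ w := by simp [hw]
  have hV0 : 0 < V := by positivity
  set c := 14 * t / V with hc
  have hc0 : 0 ≤ c := by positivity
  have hK : 0 ≤ K := good_nonneg hb
  let C : Fin 3 → ℝ≥0∞ := ![ENNReal.ofReal (Real.exp (14 * t * ρ ^ 2 * V)),
    ENNReal.ofReal (Real.exp (-(u - 14 * t * D) * ρ * V)),
    ENNReal.ofReal (Real.exp (-(K * D ^ 2 / 64 * V)))]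
  let k' : Fin 3 → E → E → ℝ := ![kp K b, kp K b, fun _ _ => 0]
  let a' : Fin 3 → ℝ := ![aact K b μ, aact K b (μ + u), μ + K / 2]
  have hk' : ∀ s ∈ (Finset.univ : Finset (Fin 3)), Measurable fun p : E × E => k' s p.1 p.2 := by
    intro s _
    fin_cases s
    · exact measurable_kp K hb.1
    · exact measurable_kp K hb.1
    · exact measurable_const
  have hpt : ∀ (N : ℕ) (x : Fin N → E), (∀ i, x i ∈ box w) →
      bweight (fun p q => kp K b p q + c) (aact K b μ) x
        ≤ ∑ s : Fin 3, C s * bweight (k' s) (a' s) x := by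
    intro N x hx
    have hwsum : wsum (fun p q => kp K b p q + c) x = wsum (kp K b) x + c * (N : ℝ) ^ 2 := by
      simp only [wsum, Finset.sum_add_distrib, Finset.sum_const, Finset.card_univ,
        Fintype.card_fin, nsmul_eq_mul]
      ring
    rcases le_or_gt (N : ℝ) (ρ * V) with h1 | h1
    · refine le_trans ?_ (Finset.single_le_sum (fun _ _ => by simp) (Finset.mem_univ 0))
      simp only [C, k', a', Matrix.cons_val_zero, bweight, Fintype.card_fin, hwsum,
        ← ENNReal.ofReal_mul (Real.exp_pos _).le, ← Real.exp_add]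
      refine ENNReal.ofReal_le_ofReal (Real.exp_le_exp.2 ?_)
      have h2 : c * (N : ℝ) ^ 2 ≤ c * (ρ * V) ^ 2 := by gcongr
      have h3 : c * (ρ * V) ^ 2 = 14 * t * ρ ^ 2 * V := by rw [hc]; field_simp
      linarith
    rcases le_or_gt (N : ℝ) (D * V) with h2 | h2
    · refine le_trans ?_ (Finset.single_le_sum (fun _ _ => by simp) (Finset.mem_univ 1))
      simp only [C, k', a', Matrix.cons_val_one, Matrix.cons_val_zero, bweight, Fintype.card_fin,
        hwsum, ← ENNReal.ofReal_mul (Real.exp_pos _).le, ← Real.exp_add]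
      refine ENNReal.ofReal_le_ofReal (Real.exp_le_exp.2 ?_)
      have h3 : c * (N : ℝ) ^ 2 ≤ 14 * t * D * N := by
        have : c * (N : ℝ) ≤ c * (D * V) := by gcongr
        have h4 : c * (D * V) = 14 * t * D := by rw [hc]; field_simp
        nlinarith [Nat.cast_nonneg (α := ℝ) N]
      have h5 : 0 ≤ (u - 14 * t * D) * ((N : ℝ) - ρ * V) :=
        mul_nonneg (by linarith) (by linarith)
      simp only [aact]
      nlinarith
    · refine le_trans ?_ (Finset.single_le_sum (fun _ _ => by simp) (Finset.mem_univ 2))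
      simp only [C, k', a', Matrix.cons_val, bweight, Fintype.card_fin, hwsum,
        ← ENNReal.ofReal_mul (Real.exp_pos _).le, ← Real.exp_add]
      refine ENNReal.ofReal_le_ofReal (Real.exp_le_exp.2 ?_)
      have h0 : wsum (fun _ _ : E => (0 : ℝ)) x = 0 := by simp [wsum]
      rw [h0]
      have hmem : ∀ i, (cell ∘ x) i ∈
          Fintype.piFinset (fun _ : Fin 3 => Finset.Icc (0 : ℤ) ((l + 1 : ℕ) : ℤ)) := fun i =>
        cell_mem_box (by simpa [hw] using hx i)
      have hsq := card_sq_le (cell ∘ x) _ hmem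
      simp only [Fintype.card_fin, Fintype.card_piFinset, Int.card_Icc, Finset.prod_const,
        Finset.card_univ] at hsq
      set Q := coinc (cell ∘ x) with hQ
      have hQ0 : 0 ≤ Q := coinc_nonneg _
      have hsq' : (N : ℝ) ^ 2 ≤ 8 * V * Q := by
        refine hsq.trans (mul_le_mul_of_nonneg_right ?_ hQ0)
        have e : (((l : ℤ) + 1 + 1 - 0).toNat : ℝ) = w + 1 := by
          have : ((l : ℤ) + 1 + 1 - 0).toNat = l + 2 := by omega
          rw [this, hw]; push_cast; ring
        push_cast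
        rw [e, hV]
        have := pow_le_pow_left₀ (by positivity) (show w + 1 ≤ 2 * w by linarith) 3
        linarith [show (2 * w) ^ 3 = 8 * w ^ 3 by ring]
      have hex := exponent_le hb μ x
      have h3 : c * (N : ℝ) ^ 2 ≤ K / 8 * Q := by
        calc c * (N : ℝ) ^ 2 ≤ c * (8 * V * Q) := by gcongr
          _ = 8 * (14 * t) * Q := by rw [hc]; field_simp
          _ ≤ 8 * (K / 64) * Q := by gcongr
          _ = K / 8 * Q := by ring
      have h4 : K * D ^ 2 / 64 * V ≤ K / 8 * Q := by
        have h5 : (D * V) ^ 2 ≤ 8 * V * Q :=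
          le_trans (pow_le_pow_left₀ (by positivity) h2.le 2) hsq'
        have h6 : D ^ 2 * V ≤ 8 * Q := le_of_mul_le_mul_left (by nlinarith) hV0
        nlinarith
      linarith
  refine (conf_combination Finset.univ C k' hk' a' _ _ (measurableSet_box w) hpt).trans ?_
  rw [Fin.sum_univ_three]
  simp only [C, k', a', Matrix.cons_val_zero, Matrix.cons_val_one, Matrix.cons_val]
  rw [Real.exp_add, Real.exp_log (by norm_num : (0 : ℝ) < 3),
    ENNReal.ofReal_mul (by norm_num : (0 : ℝ) ≤ 3)]
  set H := max 0 (max (14 * t * ρ ^ 2 * V + (w + 2) ^ 3 * pres K b μ)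
        (-(u - 14 * t * D) * ρ * V + (w + 2) ^ 3 * pres K b (μ + u))) with hH
  have h3 : ENNReal.ofReal 3 = 3 := by simp
  rw [h3, show (3 : ℝ≥0∞) * ENNReal.ofReal (Real.exp H)
    = ENNReal.ofReal (Real.exp H) + ENNReal.ofReal (Real.exp H) + ENNReal.ofReal (Real.exp H) by ring]
  have hA : ∀ y μ', y + (w + 2) ^ 3 * pres K b μ' ≤ H →
      ENNReal.ofReal (Real.exp y) * conf (kp K b) (aact K b μ') (box w)
        ≤ ENNReal.ofReal (Real.exp H) := by
    intro y μ' hy
    rw [← ofReal_exp_lxi hb μ' hw0, ← ENNReal.ofReal_mul (Real.exp_pos _).le, ← Real.exp_add]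
    exact ENNReal.ofReal_le_ofReal (Real.exp_le_exp.2 (by linarith [lxi_le_pres hb μ' hw0]))
  refine add_le_add (add_le_add ?_ ?_) ?_
  · exact hA _ _ (le_trans (le_max_left _ _) (le_max_right _ _))
  · exact hA _ _ (le_trans (le_max_right _ _) (le_max_right _ _))
  · refine (mul_le_mul' le_rfl (conf_const_le hV0.le (measurableSet_box w) (volume_box hw0).le)).trans ?_
    rw [← ENNReal.ofReal_mul (Real.exp_pos _).le, ← Real.exp_add]
    refine ENNReal.ofReal_le_ofReal (Real.exp_le_exp.2 ?_)
    have := mul_le_mul_of_nonneg_left hDK hV0.le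
    linarith [le_max_left (0 : ℝ) (max (14 * t * ρ ^ 2 * V + (w + 2) ^ 3 * pres K b μ)
        (-(u - 14 * t * D) * ρ * V + (w + 2) ^ 3 * pres K b (μ + u)))]

/-- Kernel acting only inside blocks. -/
noncomputable def kblock (K : ℝ) (b : ℕ → ℝ) (c : ℝ) (m s : ℕ) (p q : E) : ℝ :=
  if key m s p = key m s q then kp K b p q + c else 0

theorem measurable_kblock (K : ℝ) {b : B1} (hb : ∀ l, 0 ≤ b l) (c : ℝ) (m s : ℕ) :
    Measurable fun p : E × E => kblock K b c m s p.1 p.2 := by
  refine Measurable.ite ?_ ((measurable_kp K hb).add_const c) measurable_const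
  exact (((measurable_key m s).comp measurable_fst).prodMk
    ((measurable_key m s).comp measurable_snd))
    (MeasurableSet.of_discrete (s := {z : (Fin 3 → ℤ) × (Fin 3 → ℤ) | z.1 = z.2}))

theorem wsum_split_le {K : ℝ} {b : B1} (hb : Good K b) {t : ℝ} (ht : 0 ≤ t) (l s : ℕ)
    {ι : Type*} [Fintype ι] (x : ι → E) :
    wsum (kp K ⇑(b + lp.single 1 l t : B1)) x
      ≤ wsum (kblock K b (14 * t / ((l : ℝ) + 1) ^ 3) (l + 1) s) x + cross b (l + 1) s x := by
  have hK : 0 ≤ K := good_nonneg hb
  have h1 : wsum (kp K ⇑(b + lp.single 1 l t : B1)) x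
      = wsum (kp K b) x + t / 2 * ∑ i, ∑ j, kac l ‖x i - x j‖ := by
    simp only [wsum, Finset.mul_sum, ← Finset.sum_add_distrib]
    refine Finset.sum_congr rfl fun i _ => Finset.sum_congr rfl fun j _ => ?_
    simp only [kp, phi, att_add, att_single]
    ring
  have h2 := mul_le_mul_of_nonneg_left (sum_kac_block l s x) (div_nonneg ht two_pos.le)
  have h3 : wsum (kp K b) x + 14 * t / ((l : ℝ) + 1) ^ 3 * coinc (key (l + 1) s ∘ x)
      ≤ wsum (kblock K b (14 * t / ((l : ℝ) + 1) ^ 3) (l + 1) s) x + cross b (l + 1) s x := by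
    simp only [wsum, cross, coinc, Function.comp, Finset.mul_sum, ← Finset.sum_add_distrib]
    refine Finset.sum_le_sum fun i _ => Finset.sum_le_sum fun j _ => ?_
    by_cases h : key (l + 1) s (x i) = key (l + 1) s (x j)
    · simp [kblock, h]
    · simp only [kblock, h, if_false, ne_eq, not_false_iff, if_true, mul_zero, add_zero, zero_add]
      simp only [kp, phi, rep]
      split_ifs <;> linarith
  have hQ := coinc_nonneg (key (l + 1) s ∘ x)
  have h4 : t / 2 * (27 * (((l : ℝ) + 1) ^ 3)⁻¹ * coinc (key (l + 1) s ∘ x))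
      ≤ 14 * t / ((l : ℝ) + 1) ^ 3 * coinc (key (l + 1) s ∘ x) := by
    rw [← mul_assoc]
    refine mul_le_mul_of_nonneg_right ?_ hQ
    rw [div_eq_mul_inv (14 * t), ← mul_assoc]
    exact mul_le_mul_of_nonneg_right (by linarith) (by positivity)
  linarith

theorem block_fibre_le {K : ℝ} {b : B1} (hb : Good K b) (c a : ℝ) (l s : ℕ) (I : Fin 3 → ℤ) :
    conf (kblock K b c (l + 1) s) a {p | key (l + 1) s p = I}
      ≤ conf (fun p q => kp K b p q + c) a (box ((l : ℝ) + 1)) := by
  have hmeas : MeasurableSet {p | key (l + 1) s p = I} :=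
    measurable_key (l + 1) s (MeasurableSet.of_discrete (s := {z | z = I}))
  let v : E := WithLp.toLp 2 fun i => -((I i : ℝ) * ((l : ℝ) + 1) - s)
  refine le_trans (conf_kernel_mono le_rfl hmeas fun p hp q hq => ?_)
    (le_trans (conf_mono _ _ (B := (fun p => v + p) ⁻¹' box ((l : ℝ) + 1)) ?_)
      (conf_image_le a _ v fun p q => by simp [kp]).le)
  · simp only [Set.mem_setOf_eq] at hp hq
    simp [kblock, hp, hq]
  · intro p hp i
    have h : (cell p i + (s : ℤ)) / ((l + 1 : ℕ) : ℤ) = I i := congrFun hp i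
    have hm : (0 : ℤ) < ((l + 1 : ℕ) : ℤ) := by positivity
    have h1 := (Int.le_ediv_iff_mul_le hm).1 h.ge
    have h2 := (Int.ediv_lt_iff_lt_mul hm).1 (show (cell p i + (s : ℤ)) / ((l + 1 : ℕ) : ℤ) < I i + 1 by omega)
    have h1' : (I i : ℝ) * ((l : ℝ) + 1) ≤ ((cell p i : ℤ) : ℝ) + s := by exact_mod_cast h1
    have h2' : ((cell p i : ℤ) : ℝ) + s + 1 ≤ ((I i : ℝ) + 1) * ((l : ℝ) + 1) := by exact_mod_cast h2
    have f1 : ((cell p i : ℤ) : ℝ) ≤ p i := Int.floor_le (p i)
    have f2 : p i < ((cell p i : ℤ) : ℝ) + 1 := Int.lt_floor_add_one (p i)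
    simp only [v, WithLp.ofLp_add, Pi.add_apply, Set.mem_Icc]
    constructor <;> linarith

/-- The pressure after adding a long Kac step. -/
theorem pres_step_le {K : ℝ} {b : B1} (hb : Good K b) {μ u t D ρ A : ℝ} (l : ℕ)
    (hb' : Good K (b + lp.single 1 l t)) (hu : 0 ≤ u) (ht : 0 ≤ t) (htK : 14 * t ≤ K / 64)
    (hD : 0 ≤ D) (hρ : 0 ≤ ρ) (htD : 14 * t * D ≤ u)
    (hDK : Real.exp (μ + K / 2) ≤ K * D ^ 2 / 64) (hA : 0 ≤ A)
    (hAK : Real.exp (μ + K / 2) ≤ K / 4 * A) :
    pres K ⇑(b + lp.single 1 l t : B1) μ ≤ eta b (l + 1) * A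
      + (Real.log 3 + max 0 (max
        (14 * t * ρ ^ 2 * ((l : ℝ) + 1) ^ 3 + ((l : ℝ) + 1 + 2) ^ 3 * pres K b μ)
        (-(u - 14 * t * D) * ρ * ((l : ℝ) + 1) ^ 3
          + ((l : ℝ) + 1 + 2) ^ 3 * pres K b (μ + u)))) / ((l : ℝ) + 1) ^ 3 := by
  set m : ℕ := l + 1 with hm
  set w : ℝ := (l : ℝ) + 1 with hw
  have hmw : (m : ℝ) = w := by rw [hm, hw]; push_cast; ring
  set G := Real.log 3 + max 0 (max (14 * t * ρ ^ 2 * w ^ 3 + (w + 2) ^ 3 * pres K b μ)
        (-(u - 14 * t * D) * ρ * w ^ 3 + (w + 2) ^ 3 * pres K b (μ + u))) with hG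
  have hG0 : 0 ≤ G := add_nonneg (Real.log_nonneg (by norm_num)) (le_max_left _ _)
  set η := eta b m
  have hη : 0 ≤ η := mul_nonneg (by norm_num) (tsum_nonneg fun i =>
    mul_nonneg (abs_nonneg _) (le_min zero_le_one (by positivity)))
  set c := 14 * t / w ^ 3 with hc
  set b' : B1 := b + lp.single 1 l t with hb'def
  have hK := good_nonneg hb
  have ha : aact K b' μ ≤ aact K b μ := by
    simp only [aact, phi, hb'def, att_add, att_single]
    linarith [mul_nonneg ht (kac_nonneg l 0)]
  have key_bound : ∀ M : ℕ, lxi K b' μ ((M : ℝ) * w)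
      ≤ Real.log (2 * w) + η * A * ((M : ℝ) * w) ^ 3 + ((M : ℝ) + 1) ^ 3 * G := by
    intro M
    set L : ℝ := (M : ℝ) * w with hL
    have hL0 : 0 ≤ L := by positivity
    refine lxi_le hb' hL0 ?_
    let C : ℕ → ℝ≥0∞ := fun s => if s < m then ENNReal.ofReal (Real.exp (η * A * L ^ 3))
      else ENNReal.ofReal (Real.exp (-(K / 4 * A * L ^ 3)))
    let k' : ℕ → E → E → ℝ := fun s => if s < m then kblock K b c m s else fun _ _ => 0
    let a' : ℕ → ℝ := fun s => if s < m then aact K b μ else μ + K / 2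
    have hk' : ∀ s ∈ Finset.range (m + 1), Measurable fun p : E × E => k' s p.1 p.2 := by
      intro s _
      by_cases h : s < m
      · simpa [k', h] using measurable_kblock K hb.1 c m s
      · simpa [k', h] using (measurable_const : Measurable fun _ : E × E => (0 : ℝ))
    have hpt : ∀ (N : ℕ) (x : Fin N → E), (∀ i, x i ∈ box L) →
        bweight (kp K b') (aact K b' μ) x
          ≤ ∑ s ∈ Finset.range (m + 1), C s * bweight (k' s) (a' s) x := by
      intro N x _
      rcases le_or_gt (coinc (cell ∘ x)) (A * L ^ 3) with hQ | hQ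
      · obtain ⟨s, hs, hcr⟩ := exists_shift hb.1 m (Nat.succ_pos l) x
        have hsm : s < m := Finset.mem_range.1 hs
        refine le_trans ?_ (Finset.single_le_sum (fun _ _ => by simp)
          (Finset.mem_range.2 (hsm.trans (Nat.lt_succ_self m))))
        simp only [C, k', a', if_pos hsm, bweight, ← ENNReal.ofReal_mul (Real.exp_pos _).le,
          ← Real.exp_add]
        refine ENNReal.ofReal_le_ofReal (Real.exp_le_exp.2 ?_)
        rw [Fintype.card_fin]
        have h1 := wsum_split_le hb ht l s x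
        have h2 := mul_le_mul_of_nonneg_left hQ hη
        have h3 := mul_le_mul_of_nonneg_right ha (Nat.cast_nonneg (α := ℝ) N)
        have h4 : η * (A * L ^ 3) = η * A * L ^ 3 := by ring
        linarith
      · refine le_trans ?_ (Finset.single_le_sum (fun _ _ => by simp)
          (Finset.self_mem_range_succ m))
        simp only [C, k', a', lt_irrefl, if_false, bweight, ← ENNReal.ofReal_mul (Real.exp_pos _).le,
          ← Real.exp_add]
        refine ENNReal.ofReal_le_ofReal (Real.exp_le_exp.2 ?_)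
        rw [Fintype.card_fin]
        have h0 : wsum (fun _ _ : E => (0 : ℝ)) x = 0 := by simp [wsum]
        have h1 := exponent_le hb' μ x
        have h2 := mul_le_mul_of_nonneg_left hQ.le (show (0 : ℝ) ≤ K / 4 by linarith)
        rw [h0]
        linarith
    refine (conf_combination _ C k' hk' a' _ _ (measurableSet_box L) hpt).trans ?_
    rw [Finset.sum_range_succ]
    have hsmall : C m * conf (k' m) (a' m) (box L) ≤ 1 := by
      simp only [C, k', a', lt_irrefl, if_false]
      refine (mul_le_mul' le_rfl (conf_const_le (pow_nonneg hL0 3) (measurableSet_box L)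
        (volume_box hL0).le)).trans ?_
      rw [← ENNReal.ofReal_mul (Real.exp_pos _).le, ← Real.exp_add]
      refine ENNReal.ofReal_le_one.2 (Real.exp_le_one_iff.2 ?_)
      have := mul_le_mul_of_nonneg_left hAK (pow_nonneg hL0 3)
      linarith
    have hmain : ∀ s ∈ Finset.range m, C s * conf (k' s) (a' s) (box L)
        ≤ ENNReal.ofReal (Real.exp (η * A * L ^ 3 + ((M : ℝ) + 1) ^ 3 * G)) := by
      intro s hs
      have hsm : s < m := Finset.mem_range.1 hs
      simp only [C, k', a', if_pos hsm]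
      rw [Real.exp_add, ENNReal.ofReal_mul (Real.exp_pos _).le]
      gcongr
      set T : Finset (Fin 3 → ℤ) := Fintype.piFinset fun _ => Finset.Icc (0 : ℤ) (M : ℤ)
      have hT : T.card = (M + 1) ^ 3 := by
        simp only [T, Fintype.card_piFinset, Int.card_Icc, Finset.prod_const, Finset.card_univ,
          Fintype.card_fin]
        congr 1
      have hsub : box L ⊆ ⋃ I ∈ T, {p | key m s p = I} := by
        intro p hp
        simp only [Set.mem_iUnion, exists_prop, Set.mem_setOf_eq]
        refine ⟨key m s p, ?_, rfl⟩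
        simp only [T, Fintype.mem_piFinset, Finset.mem_Icc, key]
        intro i
        have c0 : 0 ≤ cell p i := Int.floor_nonneg.2 (hp i).1
        have c1 : cell p i ≤ (M : ℤ) * (m : ℤ) := by
          refine Int.floor_le_iff.2 ?_
          push_cast
          rw [hmw]
          linarith [(hp i).2]
        have hm0 : (0 : ℤ) < m := by exact_mod_cast Nat.succ_pos l
        constructor
        · exact Int.ediv_nonneg (by omega) hm0.le
        · refine Int.lt_add_one_iff.1 ((Int.ediv_lt_iff_lt_mul hm0).2 ?_)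
          rw [add_mul, one_mul]
          omega
      have hfib : ∀ I ∈ T, MeasurableSet {p | key m s p = I} := fun I _ =>
        measurable_key m s (MeasurableSet.of_discrete (s := {z | z = I}))
      refine le_trans (conf_mono _ _ hsub) ?_
      rw [conf_biUnion (measurable_kblock K hb.1 c m s) _ _ T hfib
        (fun I _ J _ hne => Set.disjoint_left.2 fun p (hp : key m s p = I) (hp' : key m s p = J) =>
          hne (hp.symm.trans hp'))
        (fun I _ J _ hne p (hp : key m s p = I) q (hq : key m s q = J) => by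
          simp [kblock, hp, hq, hne])]
      calc ∏ I ∈ T, conf (kblock K b c m s) (aact K b μ) {p | key m s p = I}
          ≤ ∏ _I ∈ T, ENNReal.ofReal (Real.exp G) := by
            refine Finset.prod_le_prod' fun I _ => ?_
            exact (block_fibre_le hb c _ l s I).trans
              (conf_block_le hb l hu ht htK hD hρ htD hDK)
        _ = _ := by
            rw [Finset.prod_const, hT, ← ENNReal.ofReal_pow (Real.exp_pos _).le, ← Real.exp_nat_mul]
            push_cast; rfl
    refine le_trans (add_le_add (Finset.sum_le_sum hmain) hsmall) ?_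
    rw [Finset.sum_const, Finset.card_range, nsmul_eq_mul, ← ENNReal.ofReal_one,
      ← ENNReal.ofReal_natCast, ← ENNReal.ofReal_mul (by positivity),
      ← ENNReal.ofReal_add (by positivity) zero_le_one]
    refine ENNReal.ofReal_le_ofReal ?_
    set Y := η * A * L ^ 3 + ((M : ℝ) + 1) ^ 3 * G with hY
    have hY0 : 0 ≤ Y := by positivity
    rw [show Real.log (2 * w) + η * A * L ^ 3 + ((M : ℝ) + 1) ^ 3 * G = Real.log (2 * w) + Y by
      rw [hY]; ring, Real.exp_add (Real.log (2 * w)) Y, Real.exp_log (by positivity), hmw]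
    have h1 : 1 ≤ w := by simp [hw]
    nlinarith [Real.one_le_exp hY0]
  have hwpos : 0 < w := by positivity
  have hseq : Tendsto (fun M : ℕ => (M : ℝ) * w) atTop atTop :=
    tendsto_natCast_atTop_atTop.atTop_mul_const hwpos
  have h1 := (tendsto_pres hb' μ).comp hseq
  have h2 : Tendsto (fun M : ℕ => Real.log (2 * w) / ((M : ℝ) * w) ^ 3 + η * A
      + (1 + 1 / (M : ℝ)) ^ 3 * (G / w ^ 3)) atTop (𝓝 (η * A + G / w ^ 3)) := by
    have a1 : Tendsto (fun M : ℕ => Real.log (2 * w) / ((M : ℝ) * w) ^ 3) atTop (𝓝 0) :=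
      tendsto_const_nhds.div_atTop ((tendsto_pow_atTop (by norm_num : (3 : ℕ) ≠ 0)).comp hseq)
    have a2 := (((tendsto_const_div_atTop_nhds_zero_nat (1 : ℝ)).const_add 1).pow 3).mul_const (G / w ^ 3)
    simpa using (a1.add_const (η * A)).add a2
  refine le_of_tendsto_of_tendsto h1 h2 ?_
  filter_upwards [eventually_gt_atTop 0] with M hM
  have hM' : (0 : ℝ) < M := by exact_mod_cast hM
  refine (mul_le_mul_of_nonneg_left (key_bound M) (by positivity)).trans (le_of_eq ?_)
  field_simp

end Vale.Agent.P171
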