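import Vale.Agent.P171.Ekeland
import Vale.Agent.P171.Upper
import Vale.Agent.P171.Trial

/-! A parameter at which the pressure is not differentiable in the chemical potential. -/

namespace Vale.Agent.P171

open MeasureTheory Finset Filter Topology

theorem continuous_coord (l : ℕ) : Continuous fun b : B1 => b l := by
  refine (LipschitzWith.of_dist_le_mul (K := 1) fun b b' => ?_).continuous
  rw [dist_eq_norm, dist_eq_norm, NNReal.coe_one, one_mul]
  simpa using lp.norm_apply_le_norm (p := 1) one_ne_zero (b - b') l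

theorem norm_add_single {b : B1} (hb : ∀ l, 0 ≤ b l) (n : ℕ) {t : ℝ} (ht : 0 ≤ t) :
    ‖b + lp.single 1 n t‖ = ‖b‖ + t := by
  have hs : ‖(lp.single 1 n t : B1)‖ = t := by
    rw [lp.norm_single (by norm_num), Real.norm_eq_abs, abs_of_nonneg ht]
  conv_rhs => rw [← hs]
  rw [b1_norm, b1_norm, b1_norm, ← (b1_summable b).tsum_add (b1_summable _)]
  refine tsum_congr fun l => ?_
  by_cases h : l = n
  · subst h; simp [abs_of_nonneg, hb l, ht, add_nonneg]
  · simp [h]

theorem single_step_good {b : B1} (hb : ∀ l, 0 ≤ b l) (n : ℕ) {t : ℝ} (ht : 0 ≤ t) :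
    ∀ l, 0 ≤ (b + lp.single 1 n t : B1) l := by
  intro l
  by_cases h : l = n
  · subst h; simpa using add_nonneg (hb l) ht
  · simpa [h] using hb l

theorem tailS_add_single {b : B1} (hb : ∀ l, 0 ≤ b l) {n : ℕ} (hn : 15 ≤ n) {t : ℝ} (ht : 0 ≤ t) :
    tailS (b + lp.single 1 n t) = tailS b + t := by
  unfold tailS
  rw [norm_add_single hb n ht]
  have : ∑ l ∈ Finset.range 15, (b + lp.single 1 n t : B1) l = ∑ l ∈ Finset.range 15, b l :=
    Finset.sum_congr rfl fun l hl => by
      have : l ≠ n := by have := Finset.mem_range.1 hl; omega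
      simp [this]
  rw [this]; ring

/-- The parameter domain. -/
def dom (R : ℝ) : Set (ℝ × B1) := {x | (∀ l, 0 ≤ x.2 l) ∧ ‖x.2‖ ≤ R}

theorem isClosed_dom (R : ℝ) : IsClosed (dom R) := by
  refine IsClosed.inter ?_ (isClosed_le continuous_snd.norm continuous_const)
  show IsClosed {x : ℝ × B1 | ∀ l, 0 ≤ x.2 l}
  simp only [Set.setOf_forall]
  exact isClosed_iInter fun l =>
    isClosed_le continuous_const ((continuous_coord l).comp continuous_snd)

theorem continuous_tailS : Continuous tailS :=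
  continuous_norm.sub (continuous_finset_sum _ fun l _ => continuous_coord l)

theorem lsc_pres {K R : ℝ} (hR : 54 * R ≤ K) :
    LowerSemicontinuous fun x : dom R => pres K x.1.2 x.1.1 := by
  intro x y hy
  have hg : ∀ z : dom R, Good K z.1.2 :=
    fun z => ⟨z.2.1, le_trans (by linarith [z.2.2]) hR⟩
  obtain ⟨δ, hδ, h⟩ := pres_lsc (hg x) hy
  refine Metric.eventually_nhds_iff.2 ⟨δ / 2, half_pos hδ, fun z hz => h _ _ (hg z) ?_⟩
  have h1 : ‖z.1 - x.1‖ < δ / 2 := by rwa [← dist_eq_norm]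
  have h2 : |z.1.1 - x.1.1| ≤ ‖z.1 - x.1‖ := by simpa using norm_fst_le (z.1 - x.1)
  have h3 : ‖z.1.2 - x.1.2‖ ≤ ‖z.1 - x.1‖ := by simpa using norm_snd_le (z.1 - x.1)
  linarith

/-- There are admissible coefficients for which the pressure has a kink. -/
theorem exists_kink :
    ∃ (K : ℝ) (b : B1), Good K b ∧ ∃ μ : ℝ, ¬ DifferentiableAt ℝ (fun ν => pres K b ν) μ := by
  obtain ⟨K, hKdef⟩ : ∃ c : ℝ, c = 100000000000000 := ⟨_, rfl⟩
  obtain ⟨R, hRdef⟩ : ∃ c : ℝ, c = 200000000000 := ⟨_, rfl⟩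
  obtain ⟨θ, hθdef⟩ : ∃ c : ℝ, c = 1 / 100000 := ⟨_, rfl⟩
  obtain ⟨ε, hεdef⟩ : ∃ c : ℝ, c = 1 / 100000000000 := ⟨_, rfl⟩
  have hK0 : 0 ≤ K := by norm_num [hKdef]
  have hR : 54 * R ≤ K := by norm_num [hKdef, hRdef]
  have hθ0 : 0 ≤ θ := by norm_num [hθdef]
  have hθ1 : θ ≤ 1 := by norm_num [hθdef]
  have hε : 0 < ε := by norm_num [hεdef]
  have hgood : ∀ z : dom R, Good K z.1.2 := fun z => ⟨z.2.1, le_trans (by linarith [z.2.2]) hR⟩
  haveI : CompleteSpace (dom R) := (isClosed_dom R).completeSpace_coe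
  let ell : ℝ × B1 → ℝ := fun x => θ * (x.1 / 27 + tailS x.2 / 55296)
  have hellc : Continuous ell :=
    continuous_const.mul ((continuous_fst.div_const _).add ((continuous_tailS.comp continuous_snd).div_const _))
  let F : dom R → ℝ := fun x => pres K x.1.2 x.1.1 + -ell x.1
  have hF : LowerSemicontinuous F :=
    (lsc_pres hR).add (hellc.comp continuous_subtype_val).neg.lowerSemicontinuous
  have hF0 : ∀ x, 0 ≤ F x := by
    intro x
    have h1 := mul_le_mul_of_nonneg_left (trial_tail (hgood x) x.1.1) hθ0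
    have h2 := mul_le_of_le_one_left (pres_nonneg (hgood x) x.1.1) hθ1
    simp only [F, ell]
    linarith
  let x0 : dom R := ⟨0, fun l => by simp, by simp [hRdef]⟩
  have hFx0 : F x0 ≤ 1 := by
    have h := pres_zero_le hK0
    simp [F, ell, x0, tailS] at h ⊢
    exact h
  obtain ⟨xs, hxs1, hxs2⟩ := ekeland_point F hF hF0 ε hε x0
  set μ := xs.1.1 with hμ
  set b := xs.1.2 with hbdef
  have hbg : Good K b := hgood xs
  have hb0 : ∀ l, 0 ≤ b l := xs.2.1
  have hbn : ‖b‖ ≤ 1 / ε := by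
    have h1 : ‖b‖ ≤ dist xs x0 := by
      rw [Subtype.dist_eq, dist_eq_norm]
      simpa [x0] using norm_snd_le xs.1
    rw [le_div_iff₀ hε]
    nlinarith [hF0 xs]
  refine ⟨K, b, hbg, μ, fun hdiff => ?_⟩
  set P := pres K b μ with hP
  have htilt : ∀ v : ℝ, θ * v / 27 - ε * |v| ≤ pres K b (μ + v) - P := by
    intro v
    let y : dom R := ⟨(μ + v, b), xs.2.1, xs.2.2⟩
    have h := hxs2 y
    have hd : dist y xs ≤ |v| := by
      rw [Subtype.dist_eq, dist_eq_norm, Prod.norm_def]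
      simp [y, hμ, hbdef]
    have h' := mul_le_mul_of_nonneg_left hd hε.le
    simp only [F, ell, y] at h
    simp only [hP, hμ, hbdef] at *
    linarith
  have hderiv := hdiff.hasDerivAt
  set d := deriv (fun ν => pres K b ν) μ
  have hsl := hasDerivAt_iff_tendsto_slope_zero.1 hderiv
  have hd : d ≤ θ / 27 + ε := by
    have hneg : Tendsto (fun v => v⁻¹ • (pres K b (μ + v) - pres K b μ)) (𝓝[<] 0) (𝓝 d) :=
      hsl.mono_left (nhdsWithin_mono _ fun v hv => ne_of_lt hv)
    refine le_of_tendsto hneg (eventually_nhdsWithin_of_forall fun v hv => ?_)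
    have hv' : v < 0 := hv
    have h := htilt v
    rw [abs_of_neg hv'] at h
    rw [smul_eq_mul, ← div_eq_inv_mul, div_le_iff_of_neg hv']
    linarith
  have hd20 : d < θ / 20 := lt_of_le_of_lt hd (by norm_num [hθdef, hεdef])
  have hpos : Tendsto (fun v => v⁻¹ • (pres K b (μ + v) - pres K b μ)) (𝓝[>] 0) (𝓝 d) :=
    hsl.mono_left (nhdsWithin_mono _ fun v hv => ne_of_gt hv)
  obtain ⟨u, hu1, hu2⟩ := (((tendsto_order.1 hpos).2 _ hd20).and self_mem_nhdsWithin).exists
  have hu : 0 < u := hu2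
  have hPu : pres K b (μ + u) ≤ P + u * (θ / 20) := by
    rw [smul_eq_mul, ← div_eq_inv_mul, div_lt_iff₀ hu] at hu1
    linarith
  set e := Real.exp (μ + K / 2) with he
  set D : ℝ := max 1 (64 * e / K) with hD
  set A : ℝ := 4 * e / K with hA
  set t : ℝ := min 1 (min (K / 896) (u / (28 * D))) with htdef
  have hKpos : 0 < K := by norm_num [hKdef]
  have hD1 : 1 ≤ D := le_max_left _ _
  have ht0 : 0 < t := lt_min one_pos (lt_min (by positivity) (by positivity))
  have ht1 : t ≤ 1 := min_le_left _ _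
  have htK : 14 * t ≤ K / 64 := by
    have : t ≤ K / 896 := (min_le_right _ _).trans (min_le_left _ _)
    linarith
  have htD : 14 * t * D ≤ u / 2 := by
    have : t ≤ u / (28 * D) := (min_le_right _ _).trans (min_le_right _ _)
    rw [le_div_iff₀ (by positivity)] at this
    linarith
  have hA0 : 0 ≤ A := by positivity
  have hAK : e ≤ K / 4 * A := le_of_eq (by rw [hA]; field_simp)
  have hDK : e ≤ K * D ^ 2 / 64 := by
    have h1 : 64 * e ≤ D * K := (div_le_iff₀ hKpos).1 (le_max_right 1 (64 * e / K))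
    have h2 : D * K ≤ D ^ 2 * K := by
      refine mul_le_mul_of_nonneg_right ?_ hK0
      nlinarith
    linarith
  set ρ := θ / 10 with hρ
  have hstep : ∀ l, 15 ≤ l → P + t * (θ / 55296 - ε)
      ≤ pres K ⇑(b + lp.single 1 l t : B1) μ := by
    intro l hl
    have hnorm := norm_add_single hb0 l ht0.le
    have hmem : (μ, b + lp.single 1 l t) ∈ dom R := by
      refine ⟨single_step_good hb0 l ht0.le, ?_⟩
      show ‖b + lp.single 1 l t‖ ≤ R
      rw [hnorm]
      have : 1 / ε + 1 ≤ R := by norm_num [hεdef, hRdef]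
      linarith
    let y : dom R := ⟨_, hmem⟩
    have h := hxs2 y
    have hd' : dist y xs ≤ t := by
      rw [Subtype.dist_eq, dist_eq_norm, Prod.norm_def]
      simp [y, hμ, hbdef, lp.norm_single, abs_of_nonneg ht0.le, ht0.le]
    have h' := mul_le_mul_of_nonneg_left hd' hε.le
    simp only [F, ell, y] at h
    rw [tailS_add_single hb0 hl ht0.le] at h
    simp only [hP, hμ, hbdef] at *
    linarith
  have hupper : ∀ l, 15 ≤ l → pres K ⇑(b + lp.single 1 l t : B1) μ ≤ eta b (l + 1) * A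
      + (Real.log 3 + max 0 (max
        (14 * t * ρ ^ 2 * ((l : ℝ) + 1) ^ 3 + ((l : ℝ) + 1 + 2) ^ 3 * pres K b μ)
        (-(u - 14 * t * D) * ρ * ((l : ℝ) + 1) ^ 3
          + ((l : ℝ) + 1 + 2) ^ 3 * pres K b (μ + u)))) / ((l : ℝ) + 1) ^ 3 := by
    intro l _
    refine pres_step_le hbg l ⟨single_step_good hb0 l ht0.le, ?_⟩ hu.le ht0.le htK
      (by linarith) (by positivity) (by linarith) hDK hA0 hAK
    rw [norm_add_single hb0 l ht0.le]
    have : 54 * (1 / ε + 1) ≤ K := by norm_num [hεdef, hKdef]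
    linarith
  have hlim : Tendsto (fun l : ℕ => eta b (l + 1) * A
      + (Real.log 3 + max 0 (max
        (14 * t * ρ ^ 2 * ((l : ℝ) + 1) ^ 3 + ((l : ℝ) + 1 + 2) ^ 3 * pres K b μ)
        (-(u - 14 * t * D) * ρ * ((l : ℝ) + 1) ^ 3
          + ((l : ℝ) + 1 + 2) ^ 3 * pres K b (μ + u)))) / ((l : ℝ) + 1) ^ 3) atTop
      (𝓝 (0 * A + (0 + max 0 (max (14 * t * ρ ^ 2 + 1 * P)
        (-(u - 14 * t * D) * ρ + 1 * pres K b (μ + u)))))) := by
    have hw : Tendsto (fun l : ℕ => (l : ℝ) + 1) atTop atTop :=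
      tendsto_atTop_add_const_right _ _ tendsto_natCast_atTop_atTop
    have h1 : Tendsto (fun l : ℕ => eta b (l + 1)) atTop (𝓝 0) :=
      (eta_tendsto b).comp (tendsto_add_atTop_nat 1)
    have h2 : Tendsto (fun l : ℕ => Real.log 3 / ((l : ℝ) + 1) ^ 3) atTop (𝓝 0) :=
      tendsto_const_nhds.div_atTop ((tendsto_pow_atTop (by norm_num : (3 : ℕ) ≠ 0)).comp hw)
    have h3 : Tendsto (fun l : ℕ => (1 + 2 / ((l : ℝ) + 1)) ^ 3) atTop (𝓝 1) := by
      simpa using (((tendsto_const_nhds (x := (2 : ℝ))).div_atTop hw).const_add 1).pow 3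
    have h4 := (h1.mul_const A).add (h2.add ((tendsto_const_nhds (x := (0 : ℝ))).max
      (((h3.mul_const P).const_add (14 * t * ρ ^ 2)).max
        ((h3.mul_const (pres K b (μ + u))).const_add (-(u - 14 * t * D) * ρ)))))
    refine h4.congr fun l => ?_
    have hV : (0 : ℝ) < ((l : ℝ) + 1) ^ 3 := by positivity
    rw [add_div, ← max_div_div_right hV.le, ← max_div_div_right hV.le, zero_div]
    congr 3
    congr 1 <;> field_simp <;> ring
  have hfinal : P + t * (θ / 55296 - ε) ≤ 0 * A + (0 + max 0 (max (14 * t * ρ ^ 2 + 1 * P)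
        (-(u - 14 * t * D) * ρ + 1 * pres K b (μ + u)))) := by
    refine ge_of_tendsto hlim ?_
    filter_upwards [eventually_ge_atTop 15] with l hl
    exact (hstep l hl).trans (hupper l hl)
  have hmax : max 0 (max (14 * t * ρ ^ 2 + 1 * P)
      (-(u - 14 * t * D) * ρ + 1 * pres K b (μ + u))) ≤ P + 14 * t * ρ ^ 2 := by
    have hP0 : 0 ≤ P := pres_nonneg hbg μ
    have h0 : 0 ≤ 14 * t * ρ ^ 2 := by positivity
    refine max_le (by linarith) (max_le (by linarith) ?_)
    have h5 : u / 2 * ρ ≤ (u - 14 * t * D) * ρ :=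
      mul_le_mul_of_nonneg_right (by linarith) (by positivity)
    have h6 : u / 2 * ρ = u * (θ / 20) := by rw [hρ]; ring
    linarith
  have hnum : 14 * ρ ^ 2 < θ / 55296 - ε := by norm_num [hρ, hθdef, hεdef]
  have := mul_lt_mul_of_pos_left hnum ht0
  linarith

end Vale.Agent.P171
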