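import Vale.Agent.P171.Energy

/-! The pressure as a supremum, its limit property, semicontinuity and two trial bounds. -/

namespace Vale.Agent.P171

open MeasureTheory Finset Filter Topology
open scoped ENNReal

/-- Admissible attraction coefficients. -/
def Good (K : ℝ) (b : B1) : Prop := (∀ l, 0 ≤ b l) ∧ 54 * ‖b‖ ≤ K

/-- Logarithm of the grand-canonical sum in a cube. -/
noncomputable def lxi (K : ℝ) (b : ℕ → ℝ) (μ L : ℝ) : ℝ :=
  Real.log (conf (kp K b) (aact K b μ) (box L)).toReal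

/-- The pressure. -/
noncomputable def pres (K : ℝ) (b : ℕ → ℝ) (μ : ℝ) : ℝ :=
  ⨆ L : Set.Ici (0 : ℝ), lxi K b μ L / ((L : ℝ) + 2) ^ 3

theorem volume_coord_box (lo hi : Fin 3 → ℝ) :
    volume {p : E | ∀ i, p i ∈ Set.Icc (lo i) (hi i)} = ∏ i, ENNReal.ofReal (hi i - lo i) := by
  have h := (PiLp.volume_preserving_ofLp (Fin 3)).measure_preimage
    (s := Set.pi Set.univ fun i => Set.Icc (lo i) (hi i))
    (MeasurableSet.univ_pi fun _ => measurableSet_Icc).nullMeasurableSet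
  rw [volume_pi_pi] at h
  simp only [Real.volume_Icc] at h
  rw [← h]
  congr 1
  ext p
  simp [Pi.le_def, forall_and]

theorem measurableSet_coord_box (lo hi : Fin 3 → ℝ) :
    MeasurableSet {p : E | ∀ i, p i ∈ Set.Icc (lo i) (hi i)} := by
  simp only [Set.setOf_forall]
  exact MeasurableSet.iInter fun i =>
    (show Measurable fun p : E => p i from by fun_prop) measurableSet_Icc

theorem measurableSet_box (L : ℝ) : MeasurableSet (box L) :=
  measurableSet_coord_box (fun _ => 0) fun _ => L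

theorem volume_box {L : ℝ} (hL : 0 ≤ L) : volume (box L) = ENNReal.ofReal (L ^ 3) := by
  unfold box
  rw [volume_coord_box (fun _ => 0) fun _ => L]
  simp [← ENNReal.ofReal_pow hL]

theorem box_mono {L L' : ℝ} (h : L ≤ L') : box L ⊆ box L' :=
  fun _ hp i => ⟨(hp i).1, (hp i).2.trans h⟩

theorem sum_exp_series (c : ℝ) (hc : 0 ≤ c) :
    ∑' N : ℕ, (N.factorial : ℝ≥0∞)⁻¹ * ENNReal.ofReal c ^ N = ENNReal.ofReal (Real.exp c) := by
  rw [Real.exp_eq_exp_ℝ, NormedSpace.exp_eq_tsum_div,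
    ENNReal.ofReal_tsum_of_nonneg (fun n => by positivity) (Real.summable_pow_div_factorial c)]
  refine tsum_congr fun n => ?_
  rw [ENNReal.ofReal_div_of_pos (by positivity), ENNReal.ofReal_pow hc, ENNReal.ofReal_natCast,
    div_eq_mul_inv, mul_comm]

theorem conf_le_exp {k : E → E → ℝ} {a c d V : ℝ} {A : Set E} (hV : 0 ≤ V)
    (hA : MeasurableSet A) (hvol : volume A ≤ ENNReal.ofReal V)
    (h : ∀ (N : ℕ) (x : Fin N → E), (∀ i, x i ∈ A) → a * (N : ℝ) + wsum k x ≤ c * N + d) :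
    conf k a A ≤ ENNReal.ofReal (Real.exp (d + V * Real.exp c)) := by
  rw [Real.exp_add, ENNReal.ofReal_mul (Real.exp_pos _).le,
    ← sum_exp_series (V * Real.exp c) (by positivity), ← ENNReal.tsum_mul_left]
  refine ENNReal.tsum_le_tsum fun N => ?_
  unfold cterm labint
  rw [mul_left_comm]
  gcongr
  calc ∫⁻ x in Set.pi Set.univ (fun _ : Fin N => A), bweight k a x
      ≤ ∫⁻ _x in Set.pi Set.univ (fun _ : Fin N => A), ENNReal.ofReal (Real.exp (c * N + d)) := by
        refine setLIntegral_mono' (MeasurableSet.univ_pi fun _ => hA) fun x hx => ?_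
        refine ENNReal.ofReal_le_ofReal (Real.exp_le_exp.2 ?_)
        rw [Fintype.card_fin]
        exact h N x fun i => hx i (Set.mem_univ i)
    _ = ENNReal.ofReal (Real.exp (c * N + d)) * volume A ^ N := by
        rw [setLIntegral_const, volume_pi_pi, Finset.prod_const, Finset.card_univ, Fintype.card_fin]
    _ ≤ ENNReal.ofReal (Real.exp (c * N + d)) * ENNReal.ofReal V ^ N := by gcongr
    _ = ENNReal.ofReal (Real.exp d) * ENNReal.ofReal (V * Real.exp c) ^ N := by
        rw [← ENNReal.ofReal_pow hV, ← ENNReal.ofReal_pow (by positivity),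
          ← ENNReal.ofReal_mul (by positivity), ← ENNReal.ofReal_mul (by positivity)]
        congr 1
        rw [mul_pow, ← Real.exp_nat_mul, Real.exp_add, mul_comm (N : ℝ) c]
        ring

theorem exponent_le {K : ℝ} {b : B1} (hb : Good K b) (μ : ℝ) {N : ℕ} (x : Fin N → E) :
    aact K b μ * (N : ℝ) + wsum (kp K b) x
      ≤ (μ + K / 2) * N - K / 4 * coinc (cell ∘ x) := by
  have h1 := wsum_kp_le hb.1 hb.2 x
  have h2 := mul_le_mul_of_nonneg_right (aact_le (K := K) hb.1 μ) (Nat.cast_nonneg (α := ℝ) N)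
  linarith

theorem good_nonneg {K : ℝ} {b : B1} (hb : Good K b) : 0 ≤ K := le_trans (by positivity) hb.2

theorem conf_box_le {K : ℝ} {b : B1} (hb : Good K b) (μ : ℝ) {L : ℝ} (hL : 0 ≤ L) :
    conf (kp K b) (aact K b μ) (box L)
      ≤ ENNReal.ofReal (Real.exp (L ^ 3 * Real.exp (μ + K / 2))) := by
  have := conf_le_exp (k := kp K b) (a := aact K b μ) (c := μ + K / 2) (d := 0)
    (pow_nonneg hL 3) (measurableSet_box L) (volume_box hL).le fun N x _ => by
      have h1 := exponent_le hb μ x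
      have h2 := mul_nonneg (good_nonneg hb) (coinc_nonneg (cell ∘ x))
      linarith
  simpa using this

theorem conf_box_ne_top {K : ℝ} {b : B1} (hb : Good K b) (μ : ℝ) {L : ℝ} (hL : 0 ≤ L) :
    conf (kp K b) (aact K b μ) (box L) ≠ ⊤ :=
  ne_top_of_le_ne_top ENNReal.ofReal_ne_top (conf_box_le hb μ hL)

theorem ofReal_exp_lxi {K : ℝ} {b : B1} (hb : Good K b) (μ : ℝ) {L : ℝ} (hL : 0 ≤ L) :
    ENNReal.ofReal (Real.exp (lxi K b μ L)) = conf (kp K b) (aact K b μ) (box L) := by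
  have h1 : (1 : ℝ) ≤ (conf (kp K b) (aact K b μ) (box L)).toReal := by
    simpa using ENNReal.toReal_mono (conf_box_ne_top hb μ hL) (one_le_conf _ _ _)
  rw [lxi, Real.exp_log (by linarith), ENNReal.ofReal_toReal (conf_box_ne_top hb μ hL)]

theorem le_lxi {K : ℝ} {b : B1} (hb : Good K b) {μ L y : ℝ} (hL : 0 ≤ L)
    (h : ENNReal.ofReal (Real.exp y) ≤ conf (kp K b) (aact K b μ) (box L)) :
    y ≤ lxi K b μ L := by
  rw [← ofReal_exp_lxi hb μ hL, ENNReal.ofReal_le_ofReal_iff (Real.exp_pos _).le] at h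
  exact Real.exp_le_exp.1 h

theorem lxi_le {K : ℝ} {b : B1} (hb : Good K b) {μ L y : ℝ} (hL : 0 ≤ L)
    (h : conf (kp K b) (aact K b μ) (box L) ≤ ENNReal.ofReal (Real.exp y)) :
    lxi K b μ L ≤ y := by
  rw [← ofReal_exp_lxi hb μ hL, ENNReal.ofReal_le_ofReal_iff (Real.exp_pos _).le] at h
  exact Real.exp_le_exp.1 h

theorem lxi_nonneg {K : ℝ} {b : B1} (hb : Good K b) (μ : ℝ) {L : ℝ} (hL : 0 ≤ L) :
    0 ≤ lxi K b μ L :=
  le_lxi hb hL (by simpa using one_le_conf (kp K b) (aact K b μ) (box L))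

theorem lxi_mono {K : ℝ} {b : B1} (hb : Good K b) (μ : ℝ) {L L' : ℝ} (hL : 0 ≤ L) (h : L ≤ L') :
    lxi K b μ L ≤ lxi K b μ L' :=
  le_lxi hb (hL.trans h) ((ofReal_exp_lxi hb μ hL).le.trans (conf_mono _ _ (box_mono h)))

theorem ratio_le_one {L : ℝ} (hL : 0 ≤ L) : L ^ 3 / (L + 2) ^ 3 ≤ 1 := by
  rw [div_le_one (by positivity)]; exact pow_le_pow_left₀ hL (by linarith) 3

theorem pres_bdd {K : ℝ} {b : B1} (hb : Good K b) (μ : ℝ) :
    BddAbove (Set.range fun L : Set.Ici (0 : ℝ) => lxi K b μ L / ((L : ℝ) + 2) ^ 3) := by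
  refine ⟨Real.exp (μ + K / 2), ?_⟩
  rintro _ ⟨⟨L, hL⟩, rfl⟩
  have hL' : 0 ≤ L := hL
  have h1 := lxi_le hb hL' (conf_box_le hb μ hL')
  calc lxi K b μ L / (L + 2) ^ 3 ≤ L ^ 3 * Real.exp (μ + K / 2) / (L + 2) ^ 3 := by gcongr
    _ = L ^ 3 / (L + 2) ^ 3 * Real.exp (μ + K / 2) := by ring
    _ ≤ Real.exp (μ + K / 2) :=
        mul_le_of_le_one_left (Real.exp_pos _).le (ratio_le_one hL')

theorem lxi_le_pres {K : ℝ} {b : B1} (hb : Good K b) (μ : ℝ) {L : ℝ} (hL : 0 ≤ L) :
    lxi K b μ L ≤ (L + 2) ^ 3 * pres K b μ := by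
  rw [← div_le_iff₀' (by positivity)]
  exact le_ciSup (pres_bdd hb μ) ⟨L, hL⟩

theorem pres_nonneg {K : ℝ} {b : B1} (hb : Good K b) (μ : ℝ) : 0 ≤ pres K b μ := by
  have h1 := lxi_le_pres hb μ (le_refl (0 : ℝ))
  have h2 := lxi_nonneg hb μ (le_refl (0 : ℝ))
  nlinarith

theorem lxi_superadd {K : ℝ} {b : B1} (hb : Good K b) (μ : ℝ) {L : ℝ} (hL : 0 ≤ L) (k : ℕ) :
    (k : ℝ) ^ 3 * lxi K b μ L ≤ lxi K b μ ((k : ℝ) * (L + 2)) := by
  classical
  have hw : 0 < L + 2 := by linarith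
  have hbig : 0 ≤ (k : ℝ) * (L + 2) := by positivity
  refine le_lxi hb hbig ?_
  let key3 : E → (Fin 3 → ℤ) := fun p i => ⌊p i / (L + 2)⌋
  let k' : E → E → ℝ := fun p q => if key3 p = key3 q then kp K b p q else 0
  have hkey : Measurable key3 :=
    measurable_pi_lambda _ fun i => Int.measurable_floor.comp (by fun_prop)
  have hk' : Measurable fun p : E × E => k' p.1 p.2 := by
    refine Measurable.ite ?_ (measurable_kp K hb.1) measurable_const
    exact ((hkey.comp measurable_fst).prodMk (hkey.comp measurable_snd))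
      (MeasurableSet.of_discrete (s := {z : (Fin 3 → ℤ) × (Fin 3 → ℤ) | z.1 = z.2}))
  let v : (Fin 3 → ℤ) → E := fun J => WithLp.toLp 2 fun i => -((L + 2) * (J i : ℝ))
  let A : (Fin 3 → ℤ) → Set E := fun J => (fun p => v J + p) ⁻¹' box L
  have hmemA : ∀ J p, p ∈ A J → ∀ i, (L + 2) * (J i : ℝ) ≤ p i ∧ p i ≤ (L + 2) * (J i : ℝ) + L := by
    intro J p hp i
    have h : 0 ≤ (v J + p) i ∧ (v J + p) i ≤ L := hp i
    simp only [v, WithLp.ofLp_add, Pi.add_apply] at h
    constructor <;> linarith [h.1, h.2]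
  have hkA : ∀ J p, p ∈ A J → key3 p = J := by
    intro J p hp
    funext i
    have h := hmemA J p hp i
    refine Int.floor_eq_iff.2 ⟨?_, ?_⟩
    · rw [le_div_iff₀ hw]; linarith
    · rw [div_lt_iff₀ hw]; linarith
  have hcross : ∀ p q J J', p ∈ A J → q ∈ A J' → J ≠ J' → 0 ≤ kp K b p q := by
    intro p q J J' hp hq hne
    obtain ⟨i, hi⟩ := Function.ne_iff.1 hne
    have hp' := hmemA J p hp i
    have hq' := hmemA J' q hq i
    have h2 : 2 ≤ |p i - q i| := by
      rcases lt_or_gt_of_ne hi with h | h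
      · have h1 : (J i : ℝ) + 1 ≤ (J' i : ℝ) := by exact_mod_cast h
        have h3 := mul_le_mul_of_nonneg_left h1 hw.le
        rw [abs_sub_comm]
        exact le_trans (by linarith) (le_abs_self _)
      · have h1 : (J' i : ℝ) + 1 ≤ (J i : ℝ) := by exact_mod_cast h
        have h3 := mul_le_mul_of_nonneg_left h1 hw.le
        exact le_trans (by linarith) (le_abs_self _)
    have h3 : ¬ ‖p - q‖ ≤ Real.sqrt 3 := by
      intro h
      have : Real.sqrt 3 < 2 := (Real.sqrt_lt' two_pos).2 (by norm_num)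
      linarith [abs_coord_le p q i]
    simp only [kp, phi, rep, if_neg h3]
    linarith [att_nonneg hb.1 ‖p - q‖]
  let T : Finset (Fin 3 → ℤ) := Fintype.piFinset fun _ => Finset.Ico (0 : ℤ) (k : ℤ)
  have hT : T.card = k ^ 3 := by simp [T, Fintype.card_piFinset]
  have hsub : (⋃ J ∈ T, A J) ⊆ box ((k : ℝ) * (L + 2)) := by
    intro p hp i
    simp only [Set.mem_iUnion, exists_prop] at hp
    obtain ⟨J, hJ, hp⟩ := hp
    have h := hmemA J p hp i
    simp only [T, Fintype.mem_piFinset, Finset.mem_Ico] at hJ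
    have h1 : (0 : ℝ) ≤ (J i : ℝ) := by exact_mod_cast (hJ i).1
    have h2 : (J i : ℝ) + 1 ≤ (k : ℝ) := by exact_mod_cast (hJ i).2
    constructor
    · exact le_trans (by positivity) h.1
    · have h3 := mul_le_mul_of_nonneg_left h2 hw.le
      linarith
  have hAm : ∀ J ∈ T, MeasurableSet (A J) :=
    fun J _ => (measurableSet_box L).preimage (measurable_const_add (v J))
  have hUm : MeasurableSet (⋃ J ∈ T, A J) := Finset.measurableSet_biUnion _ hAm
  calc ENNReal.ofReal (Real.exp ((k : ℝ) ^ 3 * lxi K b μ L))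
      = ∏ _J ∈ T, conf (kp K b) (aact K b μ) (box L) := by
        rw [Finset.prod_const, hT, ← ofReal_exp_lxi hb μ hL,
          ← ENNReal.ofReal_pow (Real.exp_pos _).le, ← Real.exp_nat_mul]
        push_cast; rfl
    _ ≤ ∏ J ∈ T, conf k' (aact K b μ) (A J) := by
        refine Finset.prod_le_prod' fun J hJ => ?_
        rw [← conf_image_le (k := kp K b) (aact K b μ) (box L) (v J) (fun p q => by simp [kp])]
        refine conf_kernel_mono le_rfl (hAm J hJ) fun p hp q hq => ?_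
        simp [k', hkA J p hp, hkA J q hq]
    _ = conf k' (aact K b μ) (⋃ J ∈ T, A J) := by
        refine (conf_biUnion hk' _ A T hAm ?_ ?_).symm
        · intro J _ J' _ hne
          exact Set.disjoint_left.2 fun p hp hp' => hne ((hkA J p hp).symm.trans (hkA J' p hp'))
        · intro J _ J' _ hne p hp q hq
          simp [k', hkA J p hp, hkA J' q hq, hne]
    _ ≤ conf (kp K b) (aact K b μ) (⋃ J ∈ T, A J) := by
        refine conf_kernel_mono le_rfl hUm fun p hp q hq => ?_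
        simp only [Set.mem_iUnion, exists_prop] at hp hq
        obtain ⟨J, -, hp⟩ := hp
        obtain ⟨J', -, hq⟩ := hq
        by_cases hne : J = J'
        · simp [k', hkA J p hp, hkA J' q hq, hne]
        · simpa [k', hkA J p hp, hkA J' q hq, hne] using hcross p q J J' hp hq hne
    _ ≤ _ := conf_mono _ _ hsub

theorem tendsto_pres {K : ℝ} {b : B1} (hb : Good K b) (μ : ℝ) :
    Tendsto (fun L : ℝ => (L ^ 3)⁻¹ * lxi K b μ L) atTop (𝓝 (pres K b μ)) := by
  refine tendsto_order.2 ⟨fun y hy => ?_, fun y hy => ?_⟩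
  · obtain ⟨⟨L, hL⟩, hLy⟩ := exists_lt_of_lt_ciSup hy
    have hw : 0 < L + 2 := by linarith [show (0 : ℝ) ≤ L from hL]
    have hlim : Tendsto (fun M : ℝ => (1 - (L + 2) / M) ^ 3 * (lxi K b μ L / (L + 2) ^ 3))
        atTop (𝓝 (lxi K b μ L / (L + 2) ^ 3)) := by
      simpa using ((((tendsto_const_nhds (x := L + 2)).div_atTop tendsto_id).const_sub 1).pow 3
        ).mul_const (lxi K b μ L / (L + 2) ^ 3)
    filter_upwards [(tendsto_order.1 hlim).1 y hLy, eventually_ge_atTop (L + 2)] with M hM hML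
    have hMpos : 0 < M := by linarith
    set k := ⌊M / (L + 2)⌋₊ with hk
    have hk1 : (k : ℝ) * (L + 2) ≤ M := (le_div_iff₀ hw).1 (Nat.floor_le (by positivity))
    have hk2 : M ≤ ((k : ℝ) + 1) * (L + 2) := ((div_lt_iff₀ hw).1 (Nat.lt_floor_add_one _)).le
    have h1 := lxi_superadd hb μ hL k
    have h2 := lxi_mono hb μ (by positivity : (0 : ℝ) ≤ (k : ℝ) * (L + 2)) hk1
    refine lt_of_lt_of_le hM ?_
    have h3 : (1 - (L + 2) / M) ^ 3 ≤ ((k : ℝ) * (L + 2) / M) ^ 3 := by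
      refine pow_le_pow_left₀ ?_ ?_ 3
      · rw [sub_nonneg, div_le_one hMpos]; exact hML
      · rw [one_sub_div hMpos.ne']
        exact div_le_div_of_nonneg_right (by linarith) hMpos.le
    calc (1 - (L + 2) / M) ^ 3 * (lxi K b μ L / (L + 2) ^ 3)
        ≤ ((k : ℝ) * (L + 2) / M) ^ 3 * (lxi K b μ L / (L + 2) ^ 3) :=
          mul_le_mul_of_nonneg_right h3 (div_nonneg (lxi_nonneg hb μ hL) (by positivity))
      _ = (M ^ 3)⁻¹ * ((k : ℝ) ^ 3 * lxi K b μ L) := by field_simp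
      _ ≤ (M ^ 3)⁻¹ * lxi K b μ M :=
          mul_le_mul_of_nonneg_left (h1.trans h2) (by positivity)
  · have hlim : Tendsto (fun M : ℝ => (1 + 2 / M) ^ 3 * pres K b μ) atTop (𝓝 (pres K b μ)) := by
      simpa using ((((tendsto_const_nhds (x := (2 : ℝ))).div_atTop tendsto_id).const_add 1).pow 3
        ).mul_const (pres K b μ)
    filter_upwards [(tendsto_order.1 hlim).2 y hy, eventually_gt_atTop 0] with M hM hM0
    refine lt_of_le_of_lt ?_ hM
    calc (M ^ 3)⁻¹ * lxi K b μ M ≤ (M ^ 3)⁻¹ * ((M + 2) ^ 3 * pres K b μ) :=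
          mul_le_mul_of_nonneg_left (lxi_le_pres hb μ hM0.le) (by positivity)
      _ = (1 + 2 / M) ^ 3 * pres K b μ := by field_simp

theorem pres_lsc {K : ℝ} {b : B1} (hb : Good K b) {μ y : ℝ} (hy : y < pres K b μ) :
    ∃ δ > 0, ∀ (b' : B1) (μ' : ℝ), Good K b' → |μ' - μ| + ‖b' - b‖ < δ → y < pres K b' μ' := by
  obtain ⟨⟨L, hL⟩, hLy⟩ := exists_lt_of_lt_ciSup hy
  have hL' : 0 ≤ L := hL
  set W := (L + 2) ^ 3 with hW
  have hW0 : 0 < W := by positivity
  have hyl : y * W < lxi K b μ L := (lt_div_iff₀ hW0).1 hLy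
  obtain ⟨z, hz1, hz2⟩ := exists_between hyl
  have hlt : ENNReal.ofReal (Real.exp z) < conf (kp K b) (aact K b μ) (box L) := by
    rw [← ofReal_exp_lxi hb μ hL']
    exact (ENNReal.ofReal_lt_ofReal_iff (Real.exp_pos _)).2 (Real.exp_lt_exp.2 hz2)
  unfold conf at hlt
  rw [ENNReal.tsum_eq_iSup_nat, lt_iSup_iff] at hlt
  obtain ⟨n, hn⟩ := hlt
  set D : ℝ := (n : ℝ) ^ 2 + n + 1 with hD
  refine ⟨(z - y * W) / D, div_pos (by linarith) (by positivity), fun b' μ' hb' hd => ?_⟩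
  set e := |μ' - μ| + ‖b' - b‖ with he
  have he0 : 0 ≤ e := by positivity
  have hpt : ∀ p q : E, kp K b p q - e ≤ kp K b' p q := by
    intro p q
    have h := (abs_le.1 (abs_att_sub_le b' b ‖p - q‖)).1
    simp only [kp, phi]
    linarith [abs_nonneg (μ' - μ)]
  have ha : aact K b μ - e ≤ aact K b' μ' := by
    have h := (abs_le.1 (abs_att_sub_le b' b 0)).2
    simp only [aact, phi]
    linarith [abs_nonneg (μ' - μ), neg_abs_le (μ' - μ), norm_nonneg (b' - b)]
  have hterm : ∀ N ∈ Finset.range n,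
      ENNReal.ofReal (Real.exp (-(e * D))) * cterm (kp K b) (aact K b μ) (box L) N
        ≤ cterm (kp K b') (aact K b' μ') (box L) N := by
    intro N hN
    have hNn : (N : ℝ) ≤ n := by exact_mod_cast (Finset.mem_range.1 hN).le
    unfold cterm labint
    rw [mul_left_comm, ← lintegral_const_mul _ (measurable_bweight (measurable_kp K hb.1) _)]
    gcongr with x
    unfold bweight
    rw [← ENNReal.ofReal_mul (Real.exp_pos _).le, ← Real.exp_add]
    refine ENNReal.ofReal_le_ofReal (Real.exp_le_exp.2 ?_)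
    rw [Fintype.card_fin]
    have h1 : wsum (kp K b) x - (N : ℝ) ^ 2 * e ≤ wsum (kp K b') x := by
      calc wsum (kp K b) x - (N : ℝ) ^ 2 * e
          = ∑ i, ∑ j, (kp K b (x i) (x j) - e) := by
            simp only [wsum, Finset.sum_sub_distrib, Finset.sum_const, Finset.card_univ,
              Fintype.card_fin, nsmul_eq_mul]
            ring
        _ ≤ _ := Finset.sum_le_sum fun i _ => Finset.sum_le_sum fun j _ => hpt _ _
    have h2 := mul_le_mul_of_nonneg_right ha (Nat.cast_nonneg (α := ℝ) N)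
    have h3 : ((N : ℝ) ^ 2 + N) * e ≤ D * e :=
      mul_le_mul_of_nonneg_right (by nlinarith [Nat.cast_nonneg (α := ℝ) N]) he0
    nlinarith
  have hlow : ENNReal.ofReal (Real.exp (z - e * D)) ≤ conf (kp K b') (aact K b' μ') (box L) := by
    calc ENNReal.ofReal (Real.exp (z - e * D))
        = ENNReal.ofReal (Real.exp (-(e * D))) * ENNReal.ofReal (Real.exp z) := by
          rw [← ENNReal.ofReal_mul (Real.exp_pos _).le, ← Real.exp_add]; ring_nf
      _ ≤ ENNReal.ofReal (Real.exp (-(e * D)))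
            * ∑ N ∈ Finset.range n, cterm (kp K b) (aact K b μ) (box L) N := by gcongr
      _ ≤ ∑ N ∈ Finset.range n, cterm (kp K b') (aact K b' μ') (box L) N := by
          rw [Finset.mul_sum]; exact Finset.sum_le_sum hterm
      _ ≤ _ := ENNReal.sum_le_tsum _
  have hl := (le_lxi hb' hL' hlow).trans (lxi_le_pres hb' μ' hL')
  have hed : e * D < z - y * W := (lt_div_iff₀ (by positivity)).1 hd
  refine lt_of_mul_lt_mul_left ?_ hW0.le
  linarith

theorem good_zero {K : ℝ} (hK : 0 ≤ K) : Good K 0 := by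
  constructor
  · intro l; simp
  · simpa using hK

theorem pres_zero_le {K : ℝ} (hK : 0 ≤ K) : pres K ⇑(0 : B1) 0 ≤ 1 := by
  have hb := good_zero hK
  have : Nonempty (Set.Ici (0 : ℝ)) := ⟨⟨0, le_refl (0 : ℝ)⟩⟩
  refine ciSup_le ?_
  rintro ⟨L, hL⟩
  have hL' : 0 ≤ L := hL
  have h : lxi K ⇑(0 : B1) 0 L ≤ L ^ 3 := by
    refine lxi_le hb hL' ?_
    have := conf_le_exp (k := kp K ⇑(0 : B1)) (a := aact K ⇑(0 : B1) 0) (c := 0) (d := 0)
      (pow_nonneg hL' 3) (measurableSet_box L) (volume_box hL').le fun N x _ => by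
        rw [exponent_eq]
        simp only [zero_mul, add_zero, zero_sub, neg_nonpos]
        refine Finset.sum_nonneg fun i _ => Finset.sum_nonneg fun j _ => ?_
        simp only [phi, att_zero, sub_zero, rep]
        split_ifs <;> simp [hK]
    simpa using this
  calc lxi K ⇑(0 : B1) 0 L / (L + 2) ^ 3 ≤ L ^ 3 / (L + 2) ^ 3 :=
        div_le_div_of_nonneg_right h (by positivity)
    _ ≤ 1 := ratio_le_one hL'

end Vale.Agent.P171
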